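import Mathlib

/-!
Definitions and module interfaces for the Friedgut-Kalai threshold-width theorem.
-/

open Finset
open scoped Classical

namespace Vale.Agent.P063

section cube

variable {ι : Type*} [Fintype ι]

/-- The `p`-biased product weight of `x`. -/
noncomputable def wt (p : ℝ) (x : ι → Bool) : ℝ := ∏ i, if x i then p else 1 - p

/-- Expectation under the `p`-biased product measure. -/
noncomputable def ev (p : ℝ) (h : (ι → Bool) → ℝ) : ℝ := ∑ x, wt p x * h x

/-- The `p`-biased character of `S`. -/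
noncomputable def chi (p : ℝ) (S : Finset ι) (x : ι → Bool) : ℝ :=
  ∏ i ∈ S, ((if x i then (1 : ℝ) else 0) - p) / Real.sqrt (p * (1 - p))

/-- The Fourier coefficient at `S`. -/
noncomputable def coef (p : ℝ) (f : (ι → Bool) → ℝ) (S : Finset ι) : ℝ :=
  ev p fun x => f x * chi p S x

/-- The Fourier weight on the sets satisfying `C`. -/
noncomputable def weight (p : ℝ) (f : (ι → Bool) → ℝ) (C : Finset ι → Prop) : ℝ :=
  ∑ S : Finset ι, if C S then coef p f S ^ 2 else 0

/-- The total influence `∑_S |S| f̂(S)²`. -/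
noncomputable def infl (p : ℝ) (f : (ι → Bool) → ℝ) : ℝ :=
  ∑ S : Finset ι, (S.card : ℝ) * coef p f S ^ 2

/-- The indicator of a Boolean function. -/
noncomputable def ind (P : (ι → Bool) → Bool) (x : ι → Bool) : ℝ := if P x then 1 else 0

/-- `h` depends only on the coordinates in `A`. -/
def DependsOnly (h : (ι → Bool) → ℝ) (A : Finset ι) : Prop :=
  ∀ x y, (∀ i ∈ A, x i = y i) → h x = h y

/-- `h` has Fourier degree at most `D` in the coordinates of `A`. -/
def DegreeOn (p : ℝ) (h : (ι → Bool) → ℝ) (A : Finset ι) (D : ℕ) : Prop :=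
  ∀ S : Finset ι, coef p h S ≠ 0 → (S ∩ A).card ≤ D

/-- The hypercontractive base. -/
noncomputable def base (p : ℝ) : ℝ := 19 / (p * (1 - p))

end cube

/-- The hyperedges of the complete `r`-uniform hypergraph on `Fin n`. -/
abbrev Edge (n r : ℕ) : Type := {s : Finset (Fin n) // s.card = r}

/-- The action of a vertex permutation on hyperedges. -/
def permEdge {n r : ℕ} (σ : Equiv.Perm (Fin n)) (e : Edge n r) : Edge n r :=
  ⟨e.1.map σ.toEmbedding, by rw [Finset.card_map]; exact e.2⟩

/-- A hypergraph property is invariant under vertex permutations. -/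
def Invariant {n r : ℕ} (P : (Edge n r → Bool) → Bool) : Prop :=
  ∀ (σ : Equiv.Perm (Fin n)) (x : Edge n r → Bool), P (fun e => x (permEdge σ e)) = P x

/-- A hypergraph property is increasing. -/
def Increasing {n r : ℕ} (P : (Edge n r → Bool) → Bool) : Prop :=
  ∀ x y : Edge n r → Bool, (∀ e, x e = true → y e = true) → P x = true → P y = true

/-- The property is neither empty nor everything. -/
def Nontrivial' {n r : ℕ} (P : (Edge n r → Bool) → Bool) : Prop :=
  (∃ x, P x = true) ∧ ∃ x, P x = false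

/-- `μ_p` of a property. -/
noncomputable def mu {n r : ℕ} (P : (Edge n r → Bool) → Bool) (p : ℝ) : ℝ := ev p (ind P)

/-- `p_a = inf {p ∈ [0,1] : μ_p ≥ a}`. -/
noncomputable def pAt {n r : ℕ} (P : (Edge n r → Bool) → Bool) (a : ℝ) : ℝ :=
  sInf {p : ℝ | p ∈ Set.Icc (0 : ℝ) 1 ∧ a ≤ mu P p}

/-- The threshold width. -/
noncomputable def width {n r : ℕ} (P : (Edge n r → Bool) → Bool) (ε : ℝ) : ℝ :=
  pAt P (1 - ε) - pAt P ε

/-! ### Module interfaces -/

/-- Module B. A product of four functions in which every coordinate outside `A` occurs at most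
twice, with bounded degree on `A`. -/
def FourProduct : Prop :=
  ∀ (ι : Type) [Fintype ι] (p : ℝ), 0 < p → p < 1 →
    ∀ (F : Fin 4 → (ι → Bool) → ℝ) (supp : Fin 4 → Finset ι) (A : Finset ι) (D : ℕ),
      (∀ k, DependsOnly (F k) (supp k)) → (∀ k, DegreeOn p (F k) A D) →
      (∀ i ∉ A, (univ.filter fun k => i ∈ supp k).card ≤ 2) →
      |ev p (fun x => ∏ k, F k x)| ≤
        base p ^ D * ∏ k, Real.sqrt (ev p (fun x => F k x ^ 2))

/-- The low, sparse sets relative to a labelling of coordinates by vertex sets: at most `t` vertices,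
each in at most `Δ` members. -/
def LowSet {ι V : Type*} [DecidableEq V] (part : ι → Finset V) (t Δ : ℕ) (S : Finset ι) : Prop :=
  S.Nonempty ∧ (S.biUnion part).card ≤ t ∧
    ∀ u ∈ S.biUnion part, (S.filter fun i => u ∈ part i).card ≤ Δ

/-- Module C. Boolean functions invariant under all permutations of `V` have little Fourier
weight on low sparse sets. -/
def LowMass : Prop :=
  ∀ r : ℕ, ∃ (c : ℝ) (w₀ : ℕ), 0 < c ∧
    ∀ (ι V : Type) [Fintype ι] [Fintype V] [DecidableEq V] (part : ι → Finset V)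
      (act : Equiv.Perm V → Equiv.Perm ι) (P : (ι → Bool) → Bool) (p : ℝ) (t Δ : ℕ),
      w₀ ≤ Fintype.card V →
      (∀ i, (part i).Nonempty ∧ (part i).card ≤ r) →
      (∀ σ i, part (act σ i) = (part i).map σ.toEmbedding) →
      (∀ σ x, P (fun i => x (act σ i)) = P x) →
      (∀ σ i, (∀ u ∈ part i, σ u = u) → act σ i = i) →
      0 < p → p < 1 →
      ((t : ℝ) + 1) + ((Δ : ℝ) + 1) * Real.log (base p) ≤ c * Real.log (Fintype.card V) →
      weight p (ind P) (LowSet part t Δ) ≤
        infl p (ind P) / (Fintype.card V : ℝ) ^ (1 / 5 : ℝ)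

/-- Module D. Low Fourier degree carries little weight. -/
def LowDegree : Prop :=
  ∀ r : ℕ, 2 ≤ r → ∃ (a : ℝ) (n₀ : ℕ), 0 < a ∧
    ∀ n : ℕ, n₀ ≤ n → ∀ (P : (Edge n r → Bool) → Bool), Invariant P →
      ∀ p : ℝ, 0 < p → p < 1 → Real.log (base p) ≤ a * Real.log n →
        weight p (ind P) (fun S => S.Nonempty ∧
            (S.card : ℝ) ≤ a * (Real.log n / Real.log (base p)) ^ ((r : ℝ) / ((r : ℝ) - 1))) ≤
          infl p (ind P) / (n : ℝ) ^ (1 / 8 : ℝ)

/-- Module R. From low degree to the threshold width. -/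
def WidthBound : Prop :=
  LowDegree → ∀ r : ℕ, 2 ≤ r → ∀ ε : ℝ, 0 < ε → ε < 1 / 2 → ∃ C : ℝ,
    ∀ n : ℕ, r ≤ n → ∀ P : (Edge n r → Bool) → Bool,
      Invariant P → Increasing P → Nontrivial' P →
        width P ε ≤ C / Real.log n ^ ((r : ℝ) / ((r : ℝ) - 1))

end Vale.Agent.P063
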