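import Vale.Agent.P063.Fourier

/-!
A product of four functions on the biased cube: hypercontractivity on few coordinates,
Cauchy–Schwarz on the others.
-/

open Finset
open scoped Classical

namespace Vale.Agent.P063

set_option linter.unusedSectionVars false
set_option linter.unusedVariables false

variable {ι : Type} [Fintype ι] {p : ℝ}

/-- Averaging one coordinate. -/
lemma ev_split (hp0 : 0 < p) (hp1 : p < 1) (h : (ι → Bool) → ℝ) (i : ι) :
    ev p h = p * ev p (fun x => h (Function.update x i true)) +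
      (1 - p) * ev p (fun x => h (Function.update x i false)) := by
  rw [← ev_mul_left, ← ev_mul_left, ← ev_add]
  have hpt : ∀ x, p * h (Function.update x i true) + (1 - p) * h (Function.update x i false) =
      ∑ S, (if i ∈ S then 0 else coef p h S) * chi p S x := by
    intro x
    rw [expansion hp0 hp1 h (Function.update x i true),
      expansion hp0 hp1 h (Function.update x i false), mul_sum, mul_sum, ← sum_add_distrib]
    refine sum_congr rfl fun S _ => ?_
    by_cases hi : i ∈ S
    · have hs : ∀ b, chi p S (Function.update x i b) = phi p b * chi p (S.erase i) x := by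
        intro b
        rw [chi_def, ← mul_prod_erase S _ hi, Function.update_self, ← chi_def,
          chi_update_of_not_mem (notMem_erase i S)]
      rw [if_pos hi, hs, hs]
      linear_combination (coef p h S * chi p (S.erase i) x) * phi_mean hp0 hp1
    · rw [if_neg hi, chi_update_of_not_mem hi, chi_update_of_not_mem hi]
      ring
  simp only [hpt]
  rw [ev_sum, sum_eq_single (∅ : Finset ι)]
  · simp [coef_empty, chi_empty, ev_const]
  · intro S _ hS
    rw [ev_mul_left, ev_chi hp0 hp1, if_neg hS, mul_zero]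
  · simp

/-- Cauchy–Schwarz. -/
lemma ev_cauchy (hp0 : 0 < p) (hp1 : p < 1) (f g : (ι → Bool) → ℝ) :
    ev p (fun x => f x * g x) ^ 2 ≤ ev p (fun x => f x ^ 2) * ev p (fun x => g x ^ 2) := by
  rw [parseval_mul hp0 hp1, parseval hp0 hp1, parseval hp0 hp1]
  exact sum_mul_sq_le_sq_mul_sq _ _ _

/-- Hypercontractivity for functions of bounded degree. -/
lemma bonami (hp0 : 0 < p) (hp1 : p < 1) (s : Finset ι) : ∀ (D : ℕ) (h : (ι → Bool) → ℝ),
    (∀ S : Finset ι, coef p h S ≠ 0 → S ⊆ s ∧ S.card ≤ D) →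
    ev p (fun x => h x ^ 4) ≤ base p ^ D * ev p (fun x => h x ^ 2) ^ 2 := by
  have hpq : (0 : ℝ) < p * (1 - p) := mul_pos hp0 (by linarith)
  have hK : 76 ≤ base p := by
    rw [base, le_div_iff₀ hpq]; nlinarith [sq_nonneg (p - 1 / 2)]
  induction s using Finset.induction with
  | empty =>
    intro D h hh
    have hc : ∀ x, h x = coef p h ∅ := by
      intro x
      rw [expansion hp0 hp1 h x, sum_eq_single (∅ : Finset ι)]
      · simp [chi_empty]
      · intro S _ hS
        by_contra hne
        exact hS (subset_empty.1 (hh S (left_ne_zero_of_mul hne)).1)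
      · simp
    simp only [hc, ev_const]
    calc coef p h ∅ ^ 4 = 1 * (coef p h ∅ ^ 2) ^ 2 := by ring
      _ ≤ base p ^ D * (coef p h ∅ ^ 2) ^ 2 := by
          gcongr; exact one_le_pow₀ (by linarith)
  | @insert i s his ih =>
    intro D h hh
    obtain ⟨a, ha⟩ : ∃ a : (ι → Bool) → ℝ,
        a = fun x => ∑ S, (if i ∈ S then 0 else coef p h S) * chi p S x := ⟨_, rfl⟩
    obtain ⟨b, hb⟩ : ∃ b : (ι → Bool) → ℝ,
        b = fun x => ∑ S, (if i ∈ S then 0 else coef p h (insert i S)) * chi p S x := ⟨_, rfl⟩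
    have hca : ∀ S, coef p a S = if i ∈ S then 0 else coef p h S := fun S => by
      rw [ha, coef_expansion hp0 hp1]
    have hcb : ∀ S, coef p b S = if i ∈ S then 0 else coef p h (insert i S) := fun S => by
      rw [hb, coef_expansion hp0 hp1]
    have hinv : ∀ (g : (ι → Bool) → ℝ), (∀ S, i ∈ S → coef p g S = 0) → ∀ x c,
        g (Function.update x i c) = g x := by
      intro g hg x c
      rw [expansion hp0 hp1 g (Function.update x i c), expansion hp0 hp1 g x]
      refine sum_congr rfl fun S _ => ?_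
      by_cases hi : i ∈ S
      · simp [hg S hi]
      · rw [chi_update_of_not_mem hi]
    have hai := hinv a fun S hi => by rw [hca, if_pos hi]
    have hbi := hinv b fun S hi => by rw [hcb, if_pos hi]
    have hdec : ∀ x, h x = a x + phi p (x i) * b x := by
      intro x
      rw [expansion hp0 hp1 h x, ha, hb]
      simp only [ite_mul, zero_mul, mul_sum, mul_ite, mul_zero]
      rw [← sum_filter_not_add_sum_filter univ (fun S : Finset ι => i ∈ S),
        sum_ite, sum_ite]
      simp only [sum_const_zero, zero_add]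
      congr 1
      refine sum_bij' (fun S _ => S.erase i) (fun S _ => insert i S) ?_ ?_ ?_ ?_ ?_
      · intro S hS; simp
      · intro S hS; simp
      · intro S hS; exact insert_erase (mem_filter.1 hS).2
      · intro S hS; exact erase_insert (mem_filter.1 hS).2
      · intro S hS
        rw [insert_erase (mem_filter.1 hS).2, chi_def, ← mul_prod_erase S _ (mem_filter.1 hS).2,
          ← chi_def]
        ring
    have hupd : ∀ x c, h (Function.update x i c) = a x + phi p c * b x := by
      intro x c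
      rw [hdec, Function.update_self, hai, hbi]
    have hA : ∀ S, coef p a S ≠ 0 → S ⊆ s ∧ S.card ≤ D := by
      intro S hS
      rw [hca] at hS
      by_cases hi : i ∈ S
      · simp [hi] at hS
      · rw [if_neg hi] at hS
        exact ⟨(subset_insert_iff_of_notMem hi).1 (hh S hS).1, (hh S hS).2⟩
    have hB : ∀ S, coef p b S ≠ 0 → S ⊆ s ∧ S.card + 1 ≤ D := by
      intro S hS
      rw [hcb] at hS
      by_cases hi : i ∈ S
      · simp [hi] at hS
      · rw [if_neg hi] at hS
        refine ⟨?_, by rw [← card_insert_of_notMem hi]; exact (hh _ hS).2⟩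
        exact (subset_insert_iff_of_notMem hi).1 ((subset_insert i S).trans (hh _ hS).1)
    have h2 : ev p (fun x => h x ^ 2) = ev p (fun x => a x ^ 2) + ev p (fun x => b x ^ 2) := by
      rw [ev_split hp0 hp1 (fun x => h x ^ 2) i, ← ev_mul_left, ← ev_mul_left, ← ev_add, ← ev_add]
      refine congrArg (ev p) (funext fun x => ?_)
      simp only [hupd]
      linear_combination (2 * a x * b x) * phi_mean hp0 hp1 + (b x ^ 2) * phi_sq hp0 hp1
    have hm4 : p * phi p true ^ 4 + (1 - p) * phi p false ^ 4 ≤ 1 / (p * (1 - p)) := by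
      have hs : Real.sqrt (p * (1 - p)) ^ 4 = (p * (1 - p)) ^ 2 := by
        rw [show 4 = 2 * 2 by rfl, pow_mul, Real.sq_sqrt hpq.le]
      simp only [phi, if_true, if_false, Bool.false_eq_true, div_pow, hs]
      rw [show p * ((1 - p) ^ 4 / (p * (1 - p)) ^ 2) + (1 - p) * ((0 - p) ^ 4 / (p * (1 - p)) ^ 2)
        = ((1 - p) ^ 3 + p ^ 3) / (p * (1 - p)) by field_simp; ring]
      gcongr
      nlinarith
    have hm3 : (p * phi p true ^ 3 + (1 - p) * phi p false ^ 3) ^ 2 ≤
        p * phi p true ^ 4 + (1 - p) * phi p false ^ 4 := by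
      have h1 := phi_sq hp0 hp1
      nlinarith [mul_nonneg (mul_pos hp0 (show (0 : ℝ) < 1 - p by linarith)).le
        (sq_nonneg (phi p true * phi p false ^ 2 - phi p false * phi p true ^ 2))]
    obtain ⟨m3, hm3d⟩ : ∃ m : ℝ, m = p * phi p true ^ 3 + (1 - p) * phi p false ^ 3 := ⟨_, rfl⟩
    have h4 : ev p (fun x => h x ^ 4) ≤ ev p (fun x => a x ^ 4) +
        8 * ev p (fun x => a x ^ 2 * b x ^ 2) + 3 / (p * (1 - p)) * ev p (fun x => b x ^ 4) := by
      rw [ev_split hp0 hp1 (fun x => h x ^ 4) i, ← ev_mul_left, ← ev_mul_left, ← ev_mul_left,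
        ← ev_mul_left, ← ev_add, ← ev_add, ← ev_add]
      refine ev_mono hp0.le hp1.le fun x => ?_
      simp only [hupd]
      have e1 := phi_mean hp0 hp1
      have e2 := phi_sq hp0 hp1
      have eq : p * (a x + phi p true * b x) ^ 4 + (1 - p) * (a x + phi p false * b x) ^ 4 =
          a x ^ 4 + 6 * (a x ^ 2 * b x ^ 2) + 4 * (a x * b x) * (m3 * b x ^ 2) +
          (p * phi p true ^ 4 + (1 - p) * phi p false ^ 4) * b x ^ 4 := by
        rw [hm3d]
        linear_combination (4 * a x ^ 3 * b x) * e1 + (6 * a x ^ 2 * b x ^ 2) * e2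
      rw [eq]
      have hb4 : 0 ≤ b x ^ 4 := by positivity
      have hm : m3 ^ 2 * b x ^ 4 ≤ 1 / (p * (1 - p)) * b x ^ 4 :=
        mul_le_mul_of_nonneg_right (hm3d ▸ hm3.trans hm4) hb4
      have hm' := mul_le_mul_of_nonneg_right hm4 hb4
      have h3 : 3 / (p * (1 - p)) * b x ^ 4 = 3 * (1 / (p * (1 - p)) * b x ^ 4) := by ring
      nlinarith [sq_nonneg (a x * b x - m3 * b x ^ 2)]
    obtain ⟨A, hAd⟩ : ∃ A, A = ev p (fun x => a x ^ 2) := ⟨_, rfl⟩
    obtain ⟨B, hBd⟩ : ∃ B, B = ev p (fun x => b x ^ 2) := ⟨_, rfl⟩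
    have hA0 : 0 ≤ A := hAd ▸ ev_nonneg hp0.le hp1.le fun x => sq_nonneg _
    have hB0 : 0 ≤ B := hBd ▸ ev_nonneg hp0.le hp1.le fun x => sq_nonneg _
    have hiA := ih D a hA
    rw [← hAd] at hiA
    rw [h2, ← hAd, ← hBd]
    rcases Nat.eq_zero_or_pos D with hD | hD
    · subst hD
      have hb0 : ∀ x, b x = 0 := by
        intro x
        rw [expansion hp0 hp1 b x]
        refine sum_eq_zero fun S _ => ?_
        by_contra hne
        have := (hB S (left_ne_zero_of_mul hne)).2
        omega
      have hBz : B = 0 := by simp [hBd, hb0, ev_const]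
      simp only [hb0] at h4
      simp [ev_const] at h4
      rw [hBz, add_zero]
      exact le_trans h4 hiA
    · obtain ⟨d, rfl⟩ : ∃ d, D = d + 1 := ⟨D - 1, by omega⟩
      have hiB := ih d b fun S hS => ⟨(hB S hS).1, by have := (hB S hS).2; omega⟩
      rw [← hBd] at hiB
      obtain ⟨X, hX⟩ : ∃ X, X = ev p (fun x => a x ^ 2 * b x ^ 2) := ⟨_, rfl⟩
      rw [← hX] at h4
      have hK0 : (0 : ℝ) < base p := by linarith
      have hcs : X ^ 2 ≤ base p ^ (d + 1) * A ^ 2 * (base p ^ d * B ^ 2) := by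
        have := ev_cauchy hp0 hp1 (fun x => a x ^ 2) (fun x => b x ^ 2)
        simp only [← pow_mul] at this
        rw [← hX] at this
        exact this.trans (mul_le_mul hiA hiB
          (ev_nonneg hp0.le hp1.le (f := fun x => b x ^ 4) fun x => by positivity)
          (mul_nonneg (pow_nonneg hK0.le _) (sq_nonneg _)))
      have hX4 : 4 * X ≤ base p ^ (d + 1) * A * B := by
        refine (le_abs_self _).trans (abs_le_of_sq_le_sq ?_ (by positivity))
        have : 16 * (base p ^ (d + 1) * A ^ 2 * (base p ^ d * B ^ 2)) ≤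
            base p * (base p ^ (d + 1) * A ^ 2 * (base p ^ d * B ^ 2)) := by
          gcongr; linarith
        calc (4 * X) ^ 2 = 16 * X ^ 2 := by ring
          _ ≤ base p * (base p ^ (d + 1) * A ^ 2 * (base p ^ d * B ^ 2)) := by linarith
          _ = _ := by ring
      have h3K : 3 / (p * (1 - p)) ≤ base p := by rw [base]; gcongr; norm_num
      calc _ ≤ _ := h4
        _ ≤ base p ^ (d + 1) * A ^ 2 + 2 * (base p ^ (d + 1) * A * B) +
            base p * (base p ^ d * B ^ 2) := by
            refine add_le_add (add_le_add hiA (by linarith)) ?_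
            exact mul_le_mul h3K hiB (ev_nonneg hp0.le hp1.le fun x => by positivity) hK0.le
        _ = base p ^ (d + 1) * (A + B) ^ 2 := by ring

/-- If every coordinate is in at most two supports, the product is bounded by the norms. -/
lemma two_supports (hp0 : 0 < p) (hp1 : p < 1) (s : Finset ι) :
    ∀ (F : Fin 4 → (ι → Bool) → ℝ) (supp : Fin 4 → Finset ι),
      (∀ k, supp k ⊆ s) → (∀ k, DependsOnly (F k) (supp k)) →
      (∀ i, (univ.filter fun k => i ∈ supp k).card ≤ 2) →
      |ev p (fun x => ∏ k, F k x)| ≤ ∏ k, Real.sqrt (ev p (fun x => F k x ^ 2)) := by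
  induction s using Finset.induction with
  | empty =>
    intro F supp hs hF _
    have hc : ∀ k x, F k x = F k (fun _ => true) :=
      fun k x => hF k x _ fun i hi => absurd (hs k hi) (notMem_empty i)
    refine le_of_eq ?_
    calc |ev p (fun x => ∏ k, F k x)| = ∏ k, |F k (fun _ => true)| := by
          simp only [hc, ev_const, abs_prod]
      _ = _ := prod_congr rfl fun k _ => by simp only [hc, ev_const, Real.sqrt_sq_eq_abs]
  | @insert i s his ih =>
    intro F supp hs hF hcount
    have hq : (0 : ℝ) < 1 - p := by linarith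
    obtain ⟨N, hN⟩ : ∃ N : Bool → Fin 4 → ℝ,
        N = fun c k => Real.sqrt (ev p (fun x => F k (Function.update x i c) ^ 2)) := ⟨_, rfl⟩
    have hN0 : ∀ c k, 0 ≤ N c k := fun c k => hN ▸ Real.sqrt_nonneg _
    have hstep : ∀ c, |ev p (fun x => ∏ k, F k (Function.update x i c))| ≤ ∏ k, N c k := by
      intro c
      rw [hN]
      refine ih (fun k x => F k (Function.update x i c)) (fun k => (supp k).erase i) ?_ ?_ ?_
      · exact fun k => subset_insert_iff.1 (hs k)
      · intro k x y hxy
        refine hF k _ _ fun j hj => ?_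
        by_cases hji : j = i
        · subst hji; simp
        · rw [Function.update_of_ne hji, Function.update_of_ne hji]
          exact hxy j (mem_erase.2 ⟨hji, hj⟩)
      · intro j
        refine le_trans (card_le_card ?_) (hcount j)
        exact fun k hk => mem_filter.2 ⟨mem_univ _, mem_of_mem_erase (mem_filter.1 hk).2⟩
    obtain ⟨M, hM⟩ : ∃ M : Fin 4 → ℝ, M = fun k => Real.sqrt (ev p (fun x => F k x ^ 2)) :=
      ⟨_, rfl⟩
    have hMsq : ∀ k, M k ^ 2 = p * N true k ^ 2 + (1 - p) * N false k ^ 2 := by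
      intro k
      simp only [hM, hN]
      rw [Real.sq_sqrt (ev_nonneg hp0.le hp1.le fun x => sq_nonneg _),
        Real.sq_sqrt (ev_nonneg hp0.le hp1.le fun x => sq_nonneg _),
        Real.sq_sqrt (ev_nonneg hp0.le hp1.le fun x => sq_nonneg _)]
      exact ev_split hp0 hp1 (fun x => F k x ^ 2) i
    have hM0 : ∀ k, 0 ≤ M k := fun k => hM ▸ Real.sqrt_nonneg _
    obtain ⟨J, hJ⟩ : ∃ J : Finset (Fin 4), J = univ.filter fun k => i ∈ supp k := ⟨_, rfl⟩
    have hout : ∀ k, k ∉ J → ∀ c, N c k = M k := by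
      intro k hk c
      simp only [hN, hM]
      congr 2
      funext x
      congr 1
      refine hF k _ _ fun j hj => ?_
      have hji : j ≠ i := fun h => hk (hJ ▸ mem_filter.2 ⟨mem_univ _, h ▸ hj⟩)
      rw [Function.update_of_ne hji]
    rw [ev_split hp0 hp1 (fun x => ∏ k, F k x) i]
    refine (abs_add_le _ _).trans ?_
    rw [abs_mul, abs_mul, abs_of_pos hp0, abs_of_pos hq]
    refine (add_le_add (mul_le_mul_of_nonneg_left (hstep true) hp0.le)
      (mul_le_mul_of_nonneg_left (hstep false) hq.le)).trans ?_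
    have hsplit : ∀ g : Fin 4 → ℝ, ∏ k, g k = (∏ k ∈ J, g k) * ∏ k ∈ univ \ J, g k :=
      fun g => by rw [mul_comm, prod_sdiff (subset_univ J)]
    have hrest : ∀ c, ∏ k ∈ univ \ J, N c k = ∏ k ∈ univ \ J, M k := fun c =>
      prod_congr rfl fun k hk => hout k (mem_sdiff.1 hk).2 c
    show p * ∏ k, N true k + (1 - p) * ∏ k, N false k ≤ _
    rw [hsplit (N true), hsplit (N false), hrest, hrest, ← mul_assoc, ← mul_assoc, ← add_mul]
    show _ ≤ ∏ k, Real.sqrt (ev p (fun x => F k x ^ 2))
    have : (fun k => Real.sqrt (ev p (fun x => F k x ^ 2))) = M := hM.symm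
    simp only [congrFun this]
    rw [hsplit M]
    refine mul_le_mul_of_nonneg_right ?_ (prod_nonneg fun k _ => hM0 k)
    have hJ2 : J.card ≤ 2 := hJ ▸ hcount i
    rcases Nat.lt_or_ge J.card 1 with h0 | h1
    · have : J = ∅ := card_eq_zero.1 (by omega)
      subst this
      simp
    rcases Nat.lt_or_ge J.card 2 with h2 | h2
    · obtain ⟨k, rfl⟩ : ∃ k, J = {k} := card_eq_one.1 (by omega)
      simp only [prod_singleton]
      refine (pow_le_pow_iff_left₀
        (add_nonneg (mul_nonneg hp0.le (hN0 _ _)) (mul_nonneg hq.le (hN0 _ _)))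
        (hM0 k) two_ne_zero).1 ?_
      rw [hMsq]
      nlinarith [mul_nonneg (mul_pos hp0 hq).le (sq_nonneg (N true k - N false k))]
    · obtain ⟨k, l, hkl, rfl⟩ : ∃ k l, k ≠ l ∧ J = {k, l} := card_eq_two.1 (by omega)
      simp only [prod_pair hkl]
      refine (pow_le_pow_iff_left₀
        (add_nonneg (mul_nonneg hp0.le (mul_nonneg (hN0 _ _) (hN0 _ _)))
          (mul_nonneg hq.le (mul_nonneg (hN0 _ _) (hN0 _ _))))
        (mul_nonneg (hM0 _) (hM0 _)) two_ne_zero).1 ?_
      rw [mul_pow (M k), hMsq, hMsq]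
      nlinarith [mul_nonneg (mul_pos hp0 hq).le
        (sq_nonneg (N true k * N false l - N false k * N true l))]

/-- Conditioning on the coordinates in `A`. -/
lemma ev_condition (hp0 : 0 < p) (hp1 : p < 1) (h : (ι → Bool) → ℝ) (A : Finset ι) :
    ev p h = ev p (fun x => ev p (fun y => h (A.piecewise x y))) := by
  have hchi : ∀ (S : Finset ι) x y,
      chi p S (A.piecewise x y) = chi p (S ∩ A) x * chi p (S \ A) y := by
    intro S x y
    rw [chi_def, ← prod_inter_mul_prod_sdiff S A, chi_def, chi_def]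
    refine congrArg₂ (· * ·) (prod_congr rfl fun i hi => ?_) (prod_congr rfl fun i hi => ?_)
    · rw [piecewise_eq_of_mem _ _ _ (mem_inter.1 hi).2]
    · rw [piecewise_eq_of_notMem _ _ _ (mem_sdiff.1 hi).2]
  have hinner : ∀ x, ev p (fun y => h (A.piecewise x y)) =
      ∑ S, (coef p h S * if S \ A = ∅ then 1 else 0) * chi p (S ∩ A) x := by
    intro x
    simp only [expansion hp0 hp1 h (A.piecewise x _), hchi]
    rw [ev_sum]
    refine sum_congr rfl fun S _ => ?_
    simp only [← mul_assoc]
    rw [ev_mul_left, ev_chi hp0 hp1]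
    ring
  simp only [hinner]
  rw [ev_sum, ← coef_empty h, sum_eq_single (∅ : Finset ι)]
  · simp [chi_empty, ev_const]
  · intro S _ hS
    rw [ev_mul_left, ev_chi hp0 hp1]
    by_cases h1 : S \ A = ∅
    · have : S ∩ A ≠ ∅ := by
        rw [inter_eq_left.2 (sdiff_eq_empty_iff_subset.1 h1)]; exact hS
      simp [this]
    · simp [h1]
  · simp

theorem fourProduct : FourProduct := by
  intro ι _ p hp0 hp1 F supp A D hF hdeg hcount
  obtain ⟨G, hG⟩ : ∃ G : Fin 4 → (ι → Bool) → (ι → Bool) → ℝ,
      G = fun k y x => F k (A.piecewise x y) := ⟨_, rfl⟩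
  obtain ⟨N, hN⟩ : ∃ N : Fin 4 → (ι → Bool) → ℝ,
      N = fun k x => Real.sqrt (ev p (fun y => G k y x ^ 2)) := ⟨_, rfl⟩
  have hN0 : ∀ k x, 0 ≤ N k x := fun k x => hN ▸ Real.sqrt_nonneg _
  obtain ⟨E2, hE2⟩ : ∃ E2 : Fin 4 → ℝ, E2 = fun k => ev p (fun x => F k x ^ 2) := ⟨_, rfl⟩
  have hE20 : ∀ k, 0 ≤ E2 k := fun k => hE2 ▸ ev_nonneg hp0.le hp1.le fun x => sq_nonneg _
  have hK : (0 : ℝ) ≤ base p :=
    (div_pos (by norm_num) (mul_pos hp0 (by linarith))).le
  -- fourth moment on `A`, for frozen outside values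
  have hG4 : ∀ k y, ev p (fun x => G k y x ^ 4) ≤
      base p ^ D * ev p (fun x => G k y x ^ 2) ^ 2 := by
    intro k y
    refine bonami hp0 hp1 A D _ fun T hT => ?_
    have hexp : G k y = fun x => ∑ S, (coef p (F k) S * chi p (S \ A) y) * chi p (S ∩ A) x := by
      funext x
      simp only [hG]
      rw [expansion hp0 hp1 (F k) (A.piecewise x y)]
      refine sum_congr rfl fun S _ => ?_
      rw [chi_def, ← prod_inter_mul_prod_sdiff S A, mul_assoc, mul_comm (chi p (S \ A) y), chi_def,
        chi_def]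
      refine congrArg (coef p (F k) S * ·) (congrArg₂ (· * ·) (prod_congr rfl fun i hi => ?_)
        (prod_congr rfl fun i hi => ?_))
      · rw [piecewise_eq_of_mem _ _ _ (mem_inter.1 hi).2]
      · rw [piecewise_eq_of_notMem _ _ _ (mem_sdiff.1 hi).2]
    rw [hexp, coef_sum] at hT
    obtain ⟨S, _, hS⟩ := exists_ne_zero_of_sum_ne_zero hT
    rw [coef_mul_left] at hS
    have h1 := left_ne_zero_of_mul (left_ne_zero_of_mul hS)
    have h2 := right_ne_zero_of_mul hS
    simp only [coef, ev_chi_mul hp0 hp1] at h2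
    have hTS : S ∩ A = T := by by_contra hne; exact h2 (if_neg hne)
    exact ⟨hTS ▸ inter_subset_right, hTS ▸ hdeg k S h1⟩
  have hN4 : ∀ k, ev p (fun x => N k x ^ 4) ≤ base p ^ D * E2 k ^ 2 := by
    intro k
    obtain ⟨a, ha⟩ : ∃ a : (ι → Bool) → ℝ, a = fun y => ev p (fun x => G k y x ^ 2) := ⟨_, rfl⟩
    have ha0 : ∀ y, 0 ≤ a y := fun y => ha ▸ ev_nonneg hp0.le hp1.le fun x => sq_nonneg _
    have hsum : ev p a = E2 k := by
      rw [hE2]
      refine Eq.trans ?_ (ev_condition hp0 hp1 (fun x => F k x ^ 2) A).symm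
      simp only [ha, hG, ev, mul_sum]
      rw [sum_comm]
      exact sum_congr rfl fun x _ => sum_congr rfl fun y _ => by ring
    have hN2 : ∀ x, N k x ^ 4 = ev p (fun y => ev p (fun z => G k y x ^ 2 * G k z x ^ 2)) := by
      intro x
      simp only [ev_mul_left]
      simp only [mul_comm (G k _ x ^ 2) (ev p _)]
      rw [ev_mul_left, show 4 = 2 * 2 by rfl, pow_mul, hN]
      simp only [Real.sq_sqrt (ev_nonneg hp0.le hp1.le fun y => sq_nonneg (G k y x))]
      rw [sq]
    calc ev p (fun x => N k x ^ 4)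
        = ev p (fun y => ev p (fun z => ev p (fun x => G k y x ^ 2 * G k z x ^ 2))) := by
          simp only [hN2]
          simp only [ev, mul_sum]
          rw [sum_comm]
          refine sum_congr rfl fun y _ => ?_
          rw [sum_comm]
          exact sum_congr rfl fun z _ => sum_congr rfl fun x _ => by ring
      _ ≤ ev p (fun y => ev p (fun z => base p ^ D * a y * a z)) := by
          refine ev_mono hp0.le hp1.le fun y => ev_mono hp0.le hp1.le fun z => ?_
          refine (le_abs_self _).trans (abs_le_of_sq_le_sq ?_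
            (mul_nonneg (mul_nonneg (pow_nonneg hK D) (ha0 y)) (ha0 z)))
          refine (ev_cauchy hp0 hp1 _ _).trans ?_
          simp only [← pow_mul]
          refine (mul_le_mul (hG4 k y) (hG4 k z) (ev_nonneg hp0.le hp1.le fun x => by positivity)
            (mul_nonneg (pow_nonneg hK D) (sq_nonneg _))).trans (le_of_eq ?_)
          simp only [ha]
          ring
      _ = base p ^ D * E2 k ^ 2 := by
          simp only [ev_mul_left]
          simp only [mul_comm (base p ^ D * a _) (ev p a)]
          rw [ev_mul_left, ev_mul_left, hsum]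
          ring
  have hfrozen : ∀ x, |ev p (fun y => ∏ k, F k (A.piecewise x y))| ≤ ∏ k, N k x := by
    intro x
    simp only [hN, hG]
    refine two_supports hp0 hp1 univ (fun k y => F k (A.piecewise x y)) (fun k => supp k \ A)
      (fun k => subset_univ _) (fun k y z hyz => hF k _ _ fun i hi => ?_) fun i => ?_
    · by_cases hiA : i ∈ A
      · rw [piecewise_eq_of_mem _ _ _ hiA, piecewise_eq_of_mem _ _ _ hiA]
      · rw [piecewise_eq_of_notMem _ _ _ hiA, piecewise_eq_of_notMem _ _ _ hiA]
        exact hyz i (mem_sdiff.2 ⟨hi, hiA⟩)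
    · by_cases hiA : i ∈ A
      · simp [hiA]
      · refine le_trans (card_le_card fun k hk => ?_) (hcount i hiA)
        exact mem_filter.2 ⟨mem_univ _, (mem_sdiff.1 (mem_filter.1 hk).2).1⟩
  have hTle : |ev p (fun x => ∏ k, F k x)| ≤ ev p (fun x => ∏ k, N k x) := by
    rw [ev_condition hp0 hp1 (fun x => ∏ k, F k x) A, abs_le]
    constructor
    · have := ev_mono hp0.le hp1.le (fun x => (abs_le.1 (hfrozen x)).1)
      rw [show (fun x => -∏ k, N k x) = fun x => (-1 : ℝ) * ∏ k, N k x by funext x; ring,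
        ev_mul_left] at this
      linarith
    · exact ev_mono hp0.le hp1.le fun x => (abs_le.1 (hfrozen x)).2
  refine hTle.trans ?_
  have hT0 : 0 ≤ ev p (fun x => ∏ k, N k x) :=
    ev_nonneg hp0.le hp1.le fun x => prod_nonneg fun k _ => hN0 k x
  refine (pow_le_pow_iff_left₀ hT0
    (mul_nonneg (pow_nonneg hK D) (prod_nonneg fun k _ => Real.sqrt_nonneg _))
    (show (4 : ℕ) ≠ 0 by norm_num)).1 ?_
  have c1 := ev_cauchy hp0 hp1 (fun x => N 0 x * N 1 x) (fun x => N 2 x * N 3 x)
  have c2 := ev_cauchy hp0 hp1 (fun x => N 0 x ^ 2) (fun x => N 1 x ^ 2)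
  have c3 := ev_cauchy hp0 hp1 (fun x => N 2 x ^ 2) (fun x => N 3 x ^ 2)
  simp only [mul_pow, ← pow_mul] at c1 c2 c3
  have hn : ∀ k, 0 ≤ ev p (fun x => N k x ^ 4) :=
    fun k => ev_nonneg hp0.le hp1.le fun x => by positivity
  have hsqrt : ∀ k, Real.sqrt (E2 k) ^ 4 = E2 k ^ 2 := by
    intro k; rw [show 4 = 2 * 2 by rfl, pow_mul, Real.sq_sqrt (hE20 k)]
  calc ev p (fun x => ∏ k, N k x) ^ 4
      = (ev p (fun x => N 0 x * N 1 x * (N 2 x * N 3 x)) ^ 2) ^ 2 := by
        rw [← pow_mul]
        refine congrArg (· ^ 4) (congrArg (ev p) (funext fun x => ?_))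
        simp [Fin.prod_univ_four, mul_assoc]
    _ ≤ (ev p (fun x => N 0 x ^ 2 * N 1 x ^ 2) * ev p (fun x => N 2 x ^ 2 * N 3 x ^ 2)) ^ 2 := by
        gcongr
    _ ≤ ev p (fun x => N 0 x ^ 4) * ev p (fun x => N 1 x ^ 4) *
          (ev p (fun x => N 2 x ^ 4) * ev p (fun x => N 3 x ^ 4)) := by
        rw [mul_pow]
        exact mul_le_mul c2 c3 (sq_nonneg _) (mul_nonneg (hn 0) (hn 1))
    _ ≤ base p ^ D * E2 0 ^ 2 * (base p ^ D * E2 1 ^ 2) *
          (base p ^ D * E2 2 ^ 2 * (base p ^ D * E2 3 ^ 2)) := by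
        have := hK
        gcongr
        · exact mul_nonneg (hn 2) (hn 3)
        · exact hn 1
        · exact hN4 0
        · exact hN4 1
        · exact hn 3
        · exact hN4 2
        · exact hN4 3
    _ = _ := by
        rw [show (fun k => Real.sqrt (ev p (fun x => F k x ^ 2))) = fun k => Real.sqrt (E2 k) by
          rw [hE2]]
        rw [Fin.prod_univ_four]
        simp only [mul_pow, hsqrt]
        ring

end Vale.Agent.P063
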