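import Vale.Agent.P063.Defs

/-!
Basic Fourier analysis on the biased cube.
-/

open Finset
open scoped Classical

namespace Vale.Agent.P063

set_option linter.unusedSectionVars false
set_option linter.unusedSimpArgs false
set_option linter.unusedVariables false

variable {ι : Type*} [Fintype ι] {p : ℝ}

/-- The biased one-variable character. -/
noncomputable def phi (p : ℝ) (b : Bool) : ℝ :=
  ((if b then (1 : ℝ) else 0) - p) / Real.sqrt (p * (1 - p))

lemma chi_def (S : Finset ι) (x : ι → Bool) : chi p S x = ∏ i ∈ S, phi p (x i) := rfl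

lemma wt_nonneg (hp0 : 0 ≤ p) (hp1 : p ≤ 1) (x : ι → Bool) : 0 ≤ wt p x :=
  prod_nonneg fun i _ => by split_ifs <;> linarith

/-- Expectations of products of one-variable functions. -/
lemma ev_prod (g : ι → Bool → ℝ) :
    ev p (fun x => ∏ i, g i (x i)) = ∏ i, (p * g i true + (1 - p) * g i false) := by
  have h : ∀ i, p * g i true + (1 - p) * g i false =
      ∑ b : Bool, (if b then p else 1 - p) * g i b := by
    intro i; simp [Fintype.sum_bool]
  simp only [h]
  rw [Fintype.prod_sum]
  simp only [ev, wt, ← prod_mul_distrib]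

lemma sum_wt : ∑ x : ι → Bool, wt p x = 1 := by
  have := ev_prod (ι := ι) (p := p) (fun _ _ => (1 : ℝ))
  simpa [ev] using this

lemma ev_const (c : ℝ) : ev p (fun _ : ι → Bool => c) = c := by
  simp only [ev, ← sum_mul, sum_wt, one_mul]

lemma ev_add (f g : (ι → Bool) → ℝ) : ev p (fun x => f x + g x) = ev p f + ev p g := by
  simp only [ev, mul_add, sum_add_distrib]

lemma ev_sub (f g : (ι → Bool) → ℝ) : ev p (fun x => f x - g x) = ev p f - ev p g := by
  simp only [ev, mul_sub, sum_sub_distrib]

lemma ev_mul_left (c : ℝ) (f : (ι → Bool) → ℝ) : ev p (fun x => c * f x) = c * ev p f := by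
  simp only [ev, mul_sum]
  exact sum_congr rfl fun x _ => by ring

lemma ev_sum {κ : Type*} (s : Finset κ) (f : κ → (ι → Bool) → ℝ) :
    ev p (fun x => ∑ k ∈ s, f k x) = ∑ k ∈ s, ev p (f k) := by
  simp only [ev, mul_sum]
  exact sum_comm

lemma ev_nonneg (hp0 : 0 ≤ p) (hp1 : p ≤ 1) {f : (ι → Bool) → ℝ} (h : ∀ x, 0 ≤ f x) :
    0 ≤ ev p f :=
  sum_nonneg fun x _ => mul_nonneg (wt_nonneg hp0 hp1 x) (h x)

lemma ev_mono (hp0 : 0 ≤ p) (hp1 : p ≤ 1) {f g : (ι → Bool) → ℝ} (h : ∀ x, f x ≤ g x) :
    ev p f ≤ ev p g :=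
  sum_le_sum fun x _ => mul_le_mul_of_nonneg_left (h x) (wt_nonneg hp0 hp1 x)

lemma sigma_pos (hp0 : 0 < p) (hp1 : p < 1) : 0 < Real.sqrt (p * (1 - p)) :=
  Real.sqrt_pos.2 (mul_pos hp0 (by linarith))

lemma phi_mean (hp0 : 0 < p) (hp1 : p < 1) : p * phi p true + (1 - p) * phi p false = 0 := by
  simp [phi]; ring

lemma phi_sq (hp0 : 0 < p) (hp1 : p < 1) :
    p * phi p true ^ 2 + (1 - p) * phi p false ^ 2 = 1 := by
  have h : (0 : ℝ) ≤ p * (1 - p) := le_of_lt (mul_pos hp0 (by linarith))
  have hne : p * (1 - p) ≠ 0 := ne_of_gt (mul_pos hp0 (by linarith))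
  have hp : p ≠ 0 := ne_of_gt hp0
  have hq : (1 : ℝ) - p ≠ 0 := by linarith
  simp only [phi, if_true, if_false, Bool.false_eq_true, div_pow, Real.sq_sqrt h]
  field_simp
  ring

lemma phi_kernel (hp0 : 0 < p) (hp1 : p < 1) (a b : Bool) :
    (if b then p else 1 - p) * (1 + phi p a * phi p b) = if a = b then (1 : ℝ) else 0 := by
  have h : (0 : ℝ) ≤ p * (1 - p) := le_of_lt (mul_pos hp0 (by linarith))
  have hp : p ≠ 0 := ne_of_gt hp0
  have hq : (1 : ℝ) - p ≠ 0 := by linarith
  unfold phi
  rw [div_mul_div_comm, Real.mul_self_sqrt h]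
  cases a <;> cases b <;> simp <;> field_simp <;> simp

lemma chi_empty (x : ι → Bool) : chi p (∅ : Finset ι) x = 1 := by simp [chi_def]

lemma chi_eq_prod (S : Finset ι) (x : ι → Bool) :
    chi p S x = ∏ i, if i ∈ S then phi p (x i) else 1 := by
  simp [chi_def, prod_ite_mem]

/-- Orthonormality of the characters. -/
lemma ev_chi_mul (hp0 : 0 < p) (hp1 : p < 1) (S T : Finset ι) :
    ev p (fun x => chi p S x * chi p T x) = if S = T then 1 else 0 := by
  simp only [chi_eq_prod, ← prod_mul_distrib]
  rw [ev_prod (fun i b => (if i ∈ S then phi p b else 1) * (if i ∈ T then phi p b else 1))]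
  by_cases h : S = T
  · subst h
    rw [if_pos rfl]
    refine prod_eq_one fun i _ => ?_
    by_cases hi : i ∈ S <;> simp [hi]
    have := phi_sq hp0 hp1
    nlinarith
  · rw [if_neg h]
    obtain ⟨i, hi⟩ : ∃ i, ¬ (i ∈ S ↔ i ∈ T) := by
      by_contra hc
      push Not at hc
      exact h (Finset.ext hc)
    refine prod_eq_zero (mem_univ i) ?_
    have := phi_mean hp0 hp1
    by_cases hS : i ∈ S <;> by_cases hT : i ∈ T <;> simp_all

lemma ev_chi (hp0 : 0 < p) (hp1 : p < 1) (S : Finset ι) :
    ev p (chi p S) = if S = ∅ then 1 else 0 := by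
  have := ev_chi_mul hp0 hp1 S ∅
  simpa [chi_empty] using this

/-- The Fourier expansion. -/
lemma expansion (hp0 : 0 < p) (hp1 : p < 1) (f : (ι → Bool) → ℝ) (x : ι → Bool) :
    f x = ∑ S, coef p f S * chi p S x := by
  have hk : ∀ y : ι → Bool, ∑ S : Finset ι, chi p S y * chi p S x =
      ∏ i, (1 + phi p (x i) * phi p (y i)) := by
    intro y
    rw [prod_one_add, powerset_univ]
    refine sum_congr rfl fun S _ => ?_
    simp only [chi_def, ← prod_mul_distrib]
    exact prod_congr rfl fun i _ => mul_comm _ _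
  calc f x = ∑ y, f y * (wt p y * ∏ i, (1 + phi p (x i) * phi p (y i))) := by
        simp only [wt, ← prod_mul_distrib, phi_kernel hp0 hp1]
        rw [sum_eq_single x]
        · simp
        · intro y _ hy
          obtain ⟨i, hi⟩ := Function.ne_iff.1 hy
          rw [prod_eq_zero (mem_univ i) (by simp [Ne.symm hi]), mul_zero]
        · simp
    _ = ∑ S, coef p f S * chi p S x := by
        simp only [← hk, mul_sum, coef, ev, sum_mul]
        rw [sum_comm]
        exact sum_congr rfl fun S _ => sum_congr rfl fun y _ => by ring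

lemma coef_sum {κ : Type*} (s : Finset κ) (f : κ → (ι → Bool) → ℝ) (S : Finset ι) :
    coef p (fun x => ∑ k ∈ s, f k x) S = ∑ k ∈ s, coef p (f k) S := by
  simp only [coef, sum_mul]
  exact ev_sum s fun k x => f k x * chi p S x

lemma coef_mul_left (c : ℝ) (f : (ι → Bool) → ℝ) (S : Finset ι) :
    coef p (fun x => c * f x) S = c * coef p f S := by
  simp only [coef, mul_assoc]
  exact ev_mul_left c _

/-- Coefficients of a combination of characters. -/
lemma coef_expansion (hp0 : 0 < p) (hp1 : p < 1) (c : Finset ι → ℝ) (T : Finset ι) :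
    coef p (fun x => ∑ S, c S * chi p S x) T = c T := by
  rw [coef_sum]
  simp only [coef_mul_left]
  simp only [coef, ev_chi_mul hp0 hp1]
  simp

/-- Parseval. -/
lemma parseval_mul (hp0 : 0 < p) (hp1 : p < 1) (f g : (ι → Bool) → ℝ) :
    ev p (fun x => f x * g x) = ∑ S, coef p f S * coef p g S := by
  calc ev p (fun x => f x * g x)
      = ev p (fun x => ∑ S, coef p g S * (f x * chi p S x)) := by
        congr 1; funext x
        rw [expansion hp0 hp1 g x, mul_sum]
        exact sum_congr rfl fun S _ => by ring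
    _ = ∑ S, coef p f S * coef p g S := by
        rw [ev_sum]
        refine sum_congr rfl fun S _ => ?_
        rw [ev_mul_left]
        simp only [coef]
        ring

lemma parseval (hp0 : 0 < p) (hp1 : p < 1) (f : (ι → Bool) → ℝ) :
    ev p (fun x => f x ^ 2) = ∑ S, coef p f S ^ 2 := by
  simp only [sq]
  exact parseval_mul hp0 hp1 f f

lemma weight_nonneg (f : (ι → Bool) → ℝ) (C : Finset ι → Prop) : 0 ≤ weight p f C :=
  sum_nonneg fun S _ => by split_ifs <;> positivity

lemma weight_mono (f : (ι → Bool) → ℝ) {C D : Finset ι → Prop} (h : ∀ S, C S → D S) :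
    weight p f C ≤ weight p f D := by
  refine sum_le_sum fun S _ => ?_
  by_cases hC : C S
  · rw [if_pos hC, if_pos (h S hC)]
  · rw [if_neg hC]; split_ifs <;> positivity

lemma infl_nonneg (f : (ι → Bool) → ℝ) : 0 ≤ infl p f :=
  sum_nonneg fun S _ => by positivity

lemma weight_le_infl (f : (ι → Bool) → ℝ) {C : Finset ι → Prop} (h : ∀ S, C S → S.Nonempty) :
    weight p f C ≤ infl p f := by
  refine sum_le_sum fun S _ => ?_
  by_cases hC : C S
  · rw [if_pos hC]
    have : (1 : ℝ) ≤ S.card := by exact_mod_cast (h S hC).card_pos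
    nlinarith [sq_nonneg (coef p f S)]
  · rw [if_neg hC]; positivity

lemma ind_sq (P : (ι → Bool) → Bool) (x : ι → Bool) : ind P x ^ 2 = ind P x := by
  unfold ind; split_ifs <;> norm_num

lemma coef_empty (f : (ι → Bool) → ℝ) : coef p f ∅ = ev p f := by simp [coef, chi_empty]

lemma weight_le_one (hp0 : 0 < p) (hp1 : p < 1) (P : (ι → Bool) → Bool)
    (C : Finset ι → Prop) : weight p (ind P) C ≤ 1 := by
  calc weight p (ind P) C ≤ ∑ S, coef p (ind P) S ^ 2 :=
        sum_le_sum fun S _ => by split_ifs <;> simp [sq_nonneg]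
    _ = ev p (fun x => ind P x ^ 2) := (parseval hp0 hp1 _).symm
    _ ≤ ev p (fun _ => (1 : ℝ)) := by
        refine ev_mono hp0.le hp1.le fun x => ?_
        unfold ind; split_ifs <;> norm_num
    _ = 1 := ev_const 1

/-- A function depends only on `A` as soon as its coefficients vanish outside `A`. -/
lemma dependsOnly_of_coef (hp0 : 0 < p) (hp1 : p < 1) {h : (ι → Bool) → ℝ} {A : Finset ι}
    (hc : ∀ S : Finset ι, ¬ S ⊆ A → coef p h S = 0) : DependsOnly h A := by
  intro x y hxy
  rw [expansion hp0 hp1 h x, expansion hp0 hp1 h y]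
  refine sum_congr rfl fun S _ => ?_
  by_cases hS : S ⊆ A
  · congr 1
    exact prod_congr rfl fun i hi => by rw [hxy i (hS hi)]
  · rw [hc S hS, zero_mul, zero_mul]

lemma chi_update_of_not_mem {S : Finset ι} {i : ι} (hi : i ∉ S) (x : ι → Bool) (b : Bool) :
    chi p S (Function.update x i b) = chi p S x := by
  refine prod_congr rfl fun j hj => ?_
  rw [Function.update_of_ne (fun h => hi (by rw [← h]; exact hj))]

/-- The discrete derivative in one coordinate. -/
lemma deriv_expansion (hp0 : 0 < p) (hp1 : p < 1) (f : (ι → Bool) → ℝ) (i : ι)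
    (x : ι → Bool) :
    Real.sqrt (p * (1 - p)) * (f (Function.update x i true) - f (Function.update x i false)) =
      ∑ S : Finset ι, if i ∈ S then coef p f S * chi p (S.erase i) x else 0 := by
  rw [expansion hp0 hp1 f (Function.update x i true),
    expansion hp0 hp1 f (Function.update x i false), ← sum_sub_distrib, mul_sum]
  refine sum_congr rfl fun S _ => ?_
  by_cases hi : i ∈ S
  · rw [if_pos hi]
    have hs : ∀ b, chi p S (Function.update x i b) = phi p b * chi p (S.erase i) x := by
      intro b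
      rw [chi_def, ← mul_prod_erase S _ hi, Function.update_self, ← chi_def,
        chi_update_of_not_mem (notMem_erase i S)]
    have := sigma_pos hp0 hp1
    rw [hs, hs]
    simp only [phi, if_true]
    field_simp
    simp
  · rw [if_neg hi, chi_update_of_not_mem hi, chi_update_of_not_mem hi]
    ring

end Vale.Agent.P063
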