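import Vale.Agent.P063.Fourier

/-!
From low Fourier degree to the threshold width (module R).
-/

open Finset
open scoped Classical

namespace Vale.Agent.P063

set_option linter.unusedSectionVars false
set_option linter.unusedVariables false

section deriv

variable {ι : Type*} [Fintype ι] {p : ℝ}

lemma hasDerivAt_wt (hp0 : 0 < p) (hp1 : p < 1) (x : ι → Bool) :
    HasDerivAt (fun q : ℝ => wt q x)
      (wt p x * ∑ i, phi p (x i) / Real.sqrt (p * (1 - p))) p := by
  have hne : p ≠ 0 := ne_of_gt hp0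
  have hne' : (1 : ℝ) - p ≠ 0 := by linarith
  have hσ := sigma_pos hp0 hp1
  have hsq : (0 : ℝ) ≤ p * (1 - p) := (mul_pos hp0 (by linarith)).le
  have h : ∀ i ∈ (univ : Finset ι),
      HasDerivAt (fun q : ℝ => if x i then q else 1 - q) (if x i then (1 : ℝ) else -1) p := by
    intro i _
    cases x i
    · simpa using (hasDerivAt_id p).const_sub 1
    · simpa using hasDerivAt_id' p
  have h2 := HasDerivAt.fun_finsetProd h
  unfold wt
  refine h2.congr_deriv ?_
  rw [mul_sum]
  refine sum_congr rfl fun i _ => ?_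
  rw [← mul_prod_erase univ _ (mem_univ i), smul_eq_mul]
  have key : (if x i then (1 : ℝ) else -1) =
      (if x i then p else 1 - p) * (phi p (x i) / Real.sqrt (p * (1 - p))) := by
    unfold phi
    rw [div_div, Real.mul_self_sqrt hsq]
    cases x i <;> simp <;> field_simp
  rw [key]
  ring

lemma hasDerivAt_ev (hp0 : 0 < p) (hp1 : p < 1) (f : (ι → Bool) → ℝ) :
    HasDerivAt (fun q : ℝ => ev q f)
      (∑ i, coef p f {i} / Real.sqrt (p * (1 - p))) p := by
  have h : HasDerivAt (fun q : ℝ => ∑ x, wt q x * f x)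
      (∑ x, (wt p x * ∑ i, phi p (x i) / Real.sqrt (p * (1 - p))) * f x) p :=
    HasDerivAt.fun_sum fun x _ => (hasDerivAt_wt hp0 hp1 x).mul_const (f x)
  unfold ev
  refine h.congr_deriv ?_
  simp only [coef, ev, chi_def, prod_singleton, sum_div, sum_mul, mul_sum]
  rw [sum_comm]
  exact sum_congr rfl fun i _ => sum_congr rfl fun x _ => by ring

/-- The expansion of the derivative, indexed by the remaining set. -/
lemma deriv_coef (hp0 : 0 < p) (hp1 : p < 1) (f : (ι → Bool) → ℝ) (i : ι) (T : Finset ι) :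
    coef p (fun x => Real.sqrt (p * (1 - p)) *
        (f (Function.update x i true) - f (Function.update x i false))) T =
      if i ∈ T then 0 else coef p f (insert i T) := by
  have e : (fun x => Real.sqrt (p * (1 - p)) *
        (f (Function.update x i true) - f (Function.update x i false))) =
      fun x => ∑ S : Finset ι, (if i ∈ S then coef p f S else 0) * chi p (S.erase i) x := by
    funext x
    rw [deriv_expansion hp0 hp1 f i x]
    exact sum_congr rfl fun S _ => by split_ifs <;> simp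
  rw [e, coef_sum]
  simp only [coef_mul_left]
  simp only [coef, ev_chi_mul hp0 hp1]
  by_cases hT : i ∈ T
  · rw [if_pos hT]
    refine sum_eq_zero fun S _ => ?_
    have : S.erase i ≠ T := fun h => notMem_erase i S (h ▸ hT)
    simp [this]
  · rw [if_neg hT, sum_eq_single (insert i T)]
    · simp [erase_insert hT]
    · intro S _ hS
      by_cases hiS : i ∈ S
      · have : S.erase i ≠ T := fun h => hS (by rw [← h, insert_erase hiS])
        simp [this]
      · simp [hiS]
    · simp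

/-- For a monotone Boolean function the influence of a coordinate is its first coefficient. -/
lemma coord_infl (hp0 : 0 < p) (hp1 : p < 1) (P : (ι → Bool) → Bool)
    (hmono : ∀ x y : ι → Bool, (∀ e, x e = true → y e = true) → P x = true → P y = true)
    (i : ι) :
    ∑ S : Finset ι, (if i ∈ S then coef p (ind P) S ^ 2 else 0) =
      Real.sqrt (p * (1 - p)) * coef p (ind P) {i} := by
  set σ := Real.sqrt (p * (1 - p)) with hσdef
  set g := fun x : ι → Bool => σ *
      (ind P (Function.update x i true) - ind P (Function.update x i false)) with hg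
  have hc : ∀ T, coef p g T = if i ∈ T then 0 else coef p (ind P) (insert i T) :=
    deriv_coef hp0 hp1 (ind P) i
  have hsq : ∀ x, g x ^ 2 = σ * g x := by
    intro x
    have hle : P (Function.update x i false) = true → P (Function.update x i true) = true := by
      refine hmono _ _ fun e he => ?_
      by_cases hei : e = i
      · subst hei; simp
      · rw [Function.update_of_ne hei] at he ⊢; exact he
    simp only [hg, ind]
    cases h1 : P (Function.update x i true) <;> cases h2 : P (Function.update x i false) <;>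
      simp_all <;> ring
  have h1 : ev p (fun x => g x ^ 2) = σ * coef p (ind P) {i} := by
    simp only [hsq]
    rw [ev_mul_left, ← coef_empty, hc ∅]
    simp
  rw [← h1, parseval hp0 hp1 g, ← sum_filter]
  simp only [hc, ite_pow, zero_pow (two_ne_zero)]
  rw [sum_ite, sum_const_zero, zero_add]
  refine sum_nbij' (fun S => S.erase i) (fun T => insert i T) ?_ ?_ ?_ ?_ ?_
  · intro S hS; simp
  · intro T hT; simp
  · intro S hS; exact insert_erase (by simpa using hS)
  · intro T hT; exact erase_insert (by simpa using hT)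
  · intro S hS; rw [insert_erase (by simpa using hS)]

/-- The Margulis-Russo identity. -/
lemma infl_eq_deriv (hp0 : 0 < p) (hp1 : p < 1) (P : (ι → Bool) → Bool)
    (hmono : ∀ x y : ι → Bool, (∀ e, x e = true → y e = true) → P x = true → P y = true) :
    infl p (ind P) = p * (1 - p) * ∑ i, coef p (ind P) {i} / Real.sqrt (p * (1 - p)) := by
  have hσ := sigma_pos hp0 hp1
  have hs : p * (1 - p) = Real.sqrt (p * (1 - p)) * Real.sqrt (p * (1 - p)) :=
    (Real.mul_self_sqrt (mul_pos hp0 (by linarith)).le).symm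
  have h : infl p (ind P) = ∑ i, ∑ S : Finset ι, (if i ∈ S then coef p (ind P) S ^ 2 else 0) := by
    unfold infl
    rw [sum_comm]
    refine sum_congr rfl fun S _ => ?_
    rw [← sum_filter, sum_const, nsmul_eq_mul]
    simp
  rw [h, mul_sum]
  refine sum_congr rfl fun i _ => ?_
  rw [coord_infl hp0 hp1 P hmono i]
  rw [← mul_div_assoc, eq_div_iff hσ.ne']
  linear_combination (-(coef p (ind P) {i})) * hs

/-- Variance as Fourier weight. -/
lemma sum_sq_erase (hp0 : 0 < p) (hp1 : p < 1) (P : (ι → Bool) → Bool) :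
    weight p (ind P) (fun S => S.Nonempty) = ev p (ind P) * (1 - ev p (ind P)) := by
  have h := parseval hp0 hp1 (ind P)
  simp only [ind_sq] at h
  have h2 : ∑ S : Finset ι, coef p (ind P) S ^ 2 =
      coef p (ind P) ∅ ^ 2 + weight p (ind P) (fun S => S.Nonempty) := by
    rw [← add_sum_erase _ _ (mem_univ (∅ : Finset ι))]
    congr 1
    unfold weight
    refine (sum_congr rfl fun S hS => ?_).trans
      (sum_erase (univ : Finset (Finset ι)) (a := ∅) ?_)
    · exact (if_pos (nonempty_iff_ne_empty.2 (ne_of_mem_erase hS))).symm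
    · simp
  rw [coef_empty] at h2
  have h3 : ev p (fun x => ind P x) = ev p (ind P) := rfl
  rw [h3, h2] at h
  linarith [sq (ev p (ind P))]

/-- Little weight in low degree forces large influence. -/
lemma infl_lower (hp0 : 0 < p) (hp1 : p < 1) (f : (ι → Bool) → ℝ) {d : ℝ} (hd : 0 ≤ d) :
    d * (weight p f (fun S => S.Nonempty) -
        weight p f (fun S => S.Nonempty ∧ (S.card : ℝ) ≤ d)) ≤ infl p f := by
  unfold weight infl
  rw [← sum_sub_distrib, mul_sum]
  refine sum_le_sum fun S _ => ?_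
  have hsq := sq_nonneg (coef p f S)
  have hc : (0 : ℝ) ≤ S.card := Nat.cast_nonneg _
  by_cases h1 : S.Nonempty
  · by_cases h2 : (S.card : ℝ) ≤ d
    · simp only [h1, h2, and_self, if_true, sub_self, mul_zero]
      positivity
    · simp only [h1, h2, and_false, if_true, if_false, sub_zero]
      exact mul_le_mul_of_nonneg_right (le_of_not_ge h2) hsq
  · simp only [h1, false_and, if_false, sub_self, mul_zero]
    positivity

end deriv

section width

variable {n r : ℕ} {P : (Edge n r → Bool) → Bool}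

lemma mu_zero (hI : Increasing P) (hN : Nontrivial' P) : mu P 0 = 0 := by
  obtain ⟨y, hy⟩ := hN.2
  have h0 : P (fun _ => false) = false := by
    by_contra h
    simp only [Bool.not_eq_false] at h
    exact absurd (hI _ y (fun e he => by simp at he) h) (by simp [hy])
  refine sum_eq_zero fun x _ => ?_
  by_cases hx : ∃ e, x e = true
  · obtain ⟨e, he⟩ := hx
    rw [show wt 0 x = 0 from prod_eq_zero (mem_univ e) (by simp [he]), zero_mul]
  · push Not at hx
    have : x = fun _ => false := funext fun e => by simpa using hx e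
    subst this
    simp [ind, h0]

lemma mu_one (hI : Increasing P) (hN : Nontrivial' P) : mu P 1 = 1 := by
  obtain ⟨y, hy⟩ := hN.1
  have h1 : P (fun _ => true) = true := hI y _ (fun e _ => rfl) hy
  unfold mu ev
  rw [sum_eq_single (fun _ => true)]
  · simp [wt, ind, h1]
  · intro x _ hx
    obtain ⟨e, he⟩ := Function.ne_iff.1 hx
    rw [show wt 1 x = 0 from prod_eq_zero (mem_univ e) (by simp at he; simp [he]), zero_mul]
  · simp

lemma continuous_mu : Continuous (mu P) := by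
  unfold mu ev wt
  refine continuous_finsetSum _ fun x _ => (continuous_finsetProd _ fun e _ => ?_).mul continuous_const
  cases x e <;> simp <;> fun_prop

lemma mu_hasDerivAt (hI : Increasing P) {p : ℝ} (hp0 : 0 < p) (hp1 : p < 1) :
    HasDerivAt (mu P) (infl p (ind P) / (p * (1 - p))) p := by
  refine (hasDerivAt_ev hp0 hp1 (ind P)).congr_deriv ?_
  rw [infl_eq_deriv hp0 hp1 P hI, mul_div_cancel_left₀]
  exact (mul_pos hp0 (by linarith)).ne'

lemma mu_monotoneOn (hI : Increasing P) : MonotoneOn (mu P) (Set.Icc 0 1) := by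
  refine monotoneOn_of_deriv_nonneg (convex_Icc 0 1) continuous_mu.continuousOn ?_ ?_
  · intro p hp
    rw [interior_Icc] at hp
    exact (mu_hasDerivAt hI hp.1 hp.2).differentiableAt.differentiableWithinAt
  · intro p hp
    rw [interior_Icc] at hp
    rw [(mu_hasDerivAt hI hp.1 hp.2).deriv]
    exact div_nonneg (infl_nonneg _) (mul_pos hp.1 (by linarith [hp.2])).le

lemma pAt_mem (hI : Increasing P) (hN : Nontrivial' P) {a : ℝ} (ha : a ≤ 1) :
    0 ≤ pAt P a ∧ pAt P a ≤ 1 := by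
  have h1 : (1 : ℝ) ∈ {p : ℝ | p ∈ Set.Icc (0 : ℝ) 1 ∧ a ≤ mu P p} :=
    ⟨⟨zero_le_one, le_rfl⟩, by rw [mu_one hI hN]; exact ha⟩
  exact ⟨le_csInf ⟨1, h1⟩ fun p hp => hp.1.1, csInf_le ⟨0, fun p hp => hp.1.1⟩ h1⟩

lemma mu_ge_of_pAt_lt (hI : Increasing P) (hN : Nontrivial' P) {a p : ℝ} (ha : a ≤ 1)
    (hp : pAt P a < p) (hp1 : p ≤ 1) : a ≤ mu P p := by
  have h1 : (1 : ℝ) ∈ {p : ℝ | p ∈ Set.Icc (0 : ℝ) 1 ∧ a ≤ mu P p} :=
    ⟨⟨zero_le_one, le_rfl⟩, by rw [mu_one hI hN]; exact ha⟩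
  obtain ⟨q, hq, hqp⟩ := exists_lt_of_csInf_lt ⟨1, h1⟩ hp
  exact hq.2.trans (mu_monotoneOn hI hq.1 ⟨hq.1.1.trans hqp.le, hp1⟩ hqp.le)

lemma mu_lt_of_lt_pAt {a p : ℝ} (hp0 : 0 ≤ p) (hp1 : p ≤ 1) (hp : p < pAt P a) :
    mu P p < a := by
  by_contra h
  have hmem : p ∈ {q : ℝ | q ∈ Set.Icc (0 : ℝ) 1 ∧ a ≤ mu P q} :=
    ⟨⟨hp0, hp1⟩, le_of_not_gt h⟩
  exact absurd (csInf_le ⟨0, fun q hq => hq.1.1⟩ hmem) (not_le.2 hp)

/-- A derivative bound on a middle range bounds the width. -/
lemma width_le (hI : Increasing P) (hN : Nontrivial' P) {ε δ M : ℝ} (hε : 0 < ε)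
    (hε1 : ε < 1 / 2) (hδ : 0 ≤ δ) (hM : 0 < M)
    (hd : ∀ p, 0 < p → p < 1 → δ ≤ p → p ≤ 1 - δ → ε ≤ mu P p → mu P p ≤ 1 - ε →
      M ≤ infl p (ind P) / (p * (1 - p))) :
    width P ε ≤ 1 / M + 2 * δ := by
  obtain ⟨hA0, hA1⟩ := pAt_mem hI hN (a := ε) (by linarith)
  obtain ⟨hB0, hB1⟩ := pAt_mem hI hN (a := 1 - ε) (by linarith)
  have hMpos : 0 < 1 / M := one_div_pos.2 hM
  unfold width
  set A := pAt P ε with hA
  set B := pAt P (1 - ε) with hB
  set A' := max A δ with hA'
  set B' := min B (1 - δ) with hB'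
  have key : B' - A' ≤ 1 / M := by
    by_cases hle : B' ≤ A'
    · linarith
    push Not at hle
    have hA'0 : 0 ≤ A' := hA0.trans (le_max_left _ _)
    have hB'1 : B' ≤ 1 := (min_le_left _ _).trans hB1
    obtain ⟨c, hc, hceq⟩ := exists_hasDerivAt_eq_slope (mu P)
      (fun p => infl p (ind P) / (p * (1 - p))) hle continuous_mu.continuousOn
      (fun p hp => mu_hasDerivAt hI (hA'0.trans_lt hp.1) (hp.2.trans_le hB'1))
    have hc0 : 0 < c := hA'0.trans_lt hc.1
    have hc1 : c < 1 := hc.2.trans_le hB'1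
    have hd' := hd c hc0 hc1 ((le_max_right A δ).trans hc.1.le)
      (hc.2.le.trans (min_le_right B (1 - δ)))
      (mu_ge_of_pAt_lt hI hN (by linarith) ((le_max_left A δ).trans_lt hc.1) hc1.le)
      (mu_lt_of_lt_pAt hc0.le hc1.le (hc.2.trans_le (min_le_left B (1 - δ)))).le
    have h1 : mu P B' ≤ 1 := by
      rw [← mu_one hI hN]
      exact mu_monotoneOn hI ⟨(hA'0.trans hle.le), hB'1⟩ ⟨zero_le_one, le_rfl⟩ hB'1
    have h0 : 0 ≤ mu P A' := by
      rw [← mu_zero hI hN]
      exact mu_monotoneOn hI ⟨le_rfl, zero_le_one⟩ ⟨hA'0, hle.le.trans hB'1⟩ hA'0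
    rw [hceq, le_div_iff₀ (sub_pos.2 hle)] at hd'
    rw [le_div_iff₀ hM]
    nlinarith
  rcases le_total A δ with h | h <;> rcases le_total B (1 - δ) with h' | h' <;>
    simp only [hA', hB', max_eq_right, max_eq_left, min_eq_left, min_eq_right, h, h'] at key <;>
    linarith

end width

lemma log_rpow_le {θ s x : ℝ} (hθ : 0 < θ) (hs : 0 < s) (hx : 1 ≤ x) :
    Real.log x ^ θ ≤ (θ / s) ^ θ * x ^ s := by
  have h0 : 0 ≤ Real.log x := Real.log_nonneg hx
  have hx0 : 0 ≤ x := zero_le_one.trans hx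
  have h := Real.log_le_rpow_div hx0 (div_pos hs hθ)
  calc Real.log x ^ θ ≤ (x ^ (s / θ) / (s / θ)) ^ θ := Real.rpow_le_rpow h0 h hθ.le
    _ = (θ / s) ^ θ * x ^ s := by
        rw [show x ^ (s / θ) / (s / θ) = θ / s * x ^ (s / θ) by field_simp,
          Real.mul_rpow (by positivity) (Real.rpow_nonneg hx0 _), ← Real.rpow_mul hx0,
          div_mul_cancel₀ s hθ.ne']

lemma final_step {a e B θ I X Y q : ℝ} (hB : 0 < B) (hθ : 0 < θ) (ha : 0 ≤ a) (he : 0 ≤ e)
    (hI : 0 ≤ I) (hY : 0 < Y) (hX : 0 ≤ X) (hq : 0 ≤ q) (hpl : q * Y ≤ 19 * θ ^ θ)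
    (hIB : a * (X / Y) * (e / 2) ≤ I * B) :
    a * (e / 2) / (B * (19 * θ ^ θ)) * X * q ≤ I := by
  have hT : 0 < 19 * θ ^ θ := by positivity
  have h1 : a * (e / 2) / (B * (19 * θ ^ θ)) * X * q =
      (a * (X / Y) * (e / 2)) * (q * Y) / (B * (19 * θ ^ θ)) := by
    field_simp
  rw [h1, div_le_iff₀ (mul_pos hB hT)]
  calc (a * (X / Y) * (e / 2)) * (q * Y) ≤ (I * B) * (19 * θ ^ θ) := by gcongr
    _ = I * (B * (19 * θ ^ θ)) := by ring

/-- The pointwise derivative bound in the middle range. -/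
lemma deriv_lower {n r : ℕ} {P : (Edge n r → Bool) → Bool} {ε a θ p : ℝ} (hε : 0 < ε)
    (hε1 : ε < 1 / 2) (ha : 0 < a) (hθ : 0 < θ) (hn2 : (2 : ℝ) ≤ n)
    (hp0 : 0 < p) (hp1 : p < 1) (hδp : 38 * (n : ℝ) ^ (-a) ≤ p)
    (hp1δ : p ≤ 1 - 38 * (n : ℝ) ^ (-a)) (hbig : 38 * (n : ℝ) ^ (-a) ≤ 1 / 2)
    (hmu0 : ε ≤ mu P p) (hmu1 : mu P p ≤ 1 - ε)
    (hlow : Real.log (base p) ≤ a * Real.log n →
      weight p (ind P) (fun S => S.Nonempty ∧
          (S.card : ℝ) ≤ a * (Real.log n / Real.log (base p)) ^ θ) ≤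
        infl p (ind P) / (n : ℝ) ^ (1 / 8 : ℝ)) :
    a * (ε / 2) / ((1 + a * (θ / (1 / 8)) ^ θ) * (19 * θ ^ θ)) * Real.log (n : ℝ) ^ θ ≤
      infl p (ind P) / (p * (1 - p)) := by
  set B := 1 + a * (θ / (1 / 8)) ^ θ with hBdef
  have hB : 0 < B := by positivity
  have hlog : 0 < Real.log n := Real.log_pos (by linarith)
  have hna : 0 < (n : ℝ) ^ (-a) := Real.rpow_pos_of_pos (by linarith) _
  set u := base p with hudef
  have hpq : 0 < p * (1 - p) := mul_pos hp0 (by linarith)
  have hq4 : p * (1 - p) ≤ 1 / 4 := by nlinarith [sq_nonneg (p - 1 / 2)]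
  have hu76 : 76 ≤ u := by rw [hudef, base, le_div_iff₀ hpq]; linarith
  have hu : u * (p * (1 - p)) = 19 := by rw [hudef, base, div_mul_cancel₀ _ hpq.ne']
  have hLpos : 0 < Real.log u := Real.log_pos (by linarith)
  have hLa : Real.log u ≤ a * Real.log n := by
    rw [← Real.log_rpow (by linarith)]
    refine Real.log_le_log (by linarith) ?_
    have hcancel : (n : ℝ) ^ a * (n : ℝ) ^ (-a) = 1 := by
      rw [← Real.rpow_add (by linarith)]; simp
    have h19 : 19 * (n : ℝ) ^ (-a) ≤ p * (1 - p) := by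
      nlinarith [mul_nonneg (sub_nonneg.2 hδp) (sub_nonneg.2 hp1δ)]
    rw [hudef, base, div_le_iff₀ hpq]
    calc (19 : ℝ) = (n : ℝ) ^ a * (19 * (n : ℝ) ^ (-a)) := by linear_combination (-19 : ℝ) * hcancel
      _ ≤ (n : ℝ) ^ a * (p * (1 - p)) := by gcongr
  set d := a * (Real.log n / Real.log u) ^ θ with hddef
  have hd0 : 0 ≤ d := by positivity
  replace hlow := hlow hLa
  have hinf := infl_lower hp0 hp1 (ind P) hd0
  rw [sum_sq_erase hp0 hp1, show ev p (ind P) = mu P p from rfl] at hinf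
  set I := infl p (ind P) with hIdef
  have hI0 : 0 ≤ I := infl_nonneg _
  set m := mu P p with hmdef
  have hvar : ε / 2 ≤ m * (1 - m) := by nlinarith
  have hn8 : 0 < (n : ℝ) ^ (1 / 8 : ℝ) := Real.rpow_pos_of_pos (by linarith) _
  have hdn : d / (n : ℝ) ^ (1 / 8 : ℝ) ≤ a * (θ / (1 / 8)) ^ θ := by
    rw [div_le_iff₀ hn8, mul_assoc]
    refine mul_le_mul_of_nonneg_left ?_ ha.le
    refine le_trans (Real.rpow_le_rpow (by positivity) (div_le_self hlog.le ?_) hθ.le)
      (log_rpow_le hθ (by norm_num) (show (1 : ℝ) ≤ n by linarith))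
    rw [Real.le_log_iff_exp_le (by linarith)]
    linarith [Real.exp_one_lt_d9]
  have hIB : d * (ε / 2) ≤ I * B := by
    generalize hw : weight p (ind P)
      (fun S => S.Nonempty ∧ (S.card : ℝ) ≤ d) = w at hlow hinf
    have h1 : d * (m * (1 - m) - I / (n : ℝ) ^ (1 / 8 : ℝ)) ≤ I :=
      le_trans (mul_le_mul_of_nonneg_left (sub_le_sub_left hlow (m * (1 - m))) hd0) hinf
    have h2 : d * (I / (n : ℝ) ^ (1 / 8 : ℝ)) ≤ I * (a * (θ / (1 / 8)) ^ θ) := by
      calc d * (I / (n : ℝ) ^ (1 / 8 : ℝ)) = I * (d / (n : ℝ) ^ (1 / 8 : ℝ)) := by ring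
        _ ≤ _ := mul_le_mul_of_nonneg_left hdn hI0
    have h3 := mul_le_mul_of_nonneg_left hvar hd0
    rw [hBdef]; linarith
  have hpl : p * (1 - p) * Real.log u ^ θ ≤ 19 * θ ^ θ := by
    have h := log_rpow_le hθ one_pos (show (1 : ℝ) ≤ u by linarith)
    rw [div_one, Real.rpow_one] at h
    calc p * (1 - p) * Real.log u ^ θ ≤ p * (1 - p) * (θ ^ θ * u) := by gcongr
      _ = 19 * θ ^ θ := by linear_combination θ ^ θ * hu
  rw [le_div_iff₀ hpq]
  have hLθ : 0 < Real.log u ^ θ := Real.rpow_pos_of_pos hLpos θ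
  rw [hddef, Real.div_rpow hlog.le hLpos.le] at hIB
  exact final_step hB hθ ha.le hε.le hI0 hLθ (Real.rpow_nonneg hlog.le θ) hpq.le hpl hIB

theorem widthBound : WidthBound := by
  intro hLD r hr ε hε hε1
  obtain ⟨a, n₀, ha, hmain⟩ := hLD r hr
  set θ := (r : ℝ) / ((r : ℝ) - 1) with hθdef
  have hr2 : (2 : ℝ) ≤ r := by exact_mod_cast hr
  have hθ : 0 < θ := div_pos (by linarith) (by linarith)
  set B := 1 + a * (θ / (1 / 8)) ^ θ with hBdef
  set c0 := a * (ε / 2) / (B * (19 * θ ^ θ)) with hc0def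
  have hB : 0 < B := by positivity
  have hc0 : 0 < c0 := by positivity
  set C := max (1 / c0 + 76 * (θ / a) ^ θ) (Real.log (n₀ + 2) ^ θ) with hCdef
  refine ⟨C, fun n hn P hinv hI hN => ?_⟩
  have hn2 : (2 : ℝ) ≤ n := by exact_mod_cast hr.trans hn
  have hlog : 0 < Real.log n := Real.log_pos (by linarith)
  have hlθ : 0 < Real.log (n : ℝ) ^ θ := Real.rpow_pos_of_pos hlog θ
  have hw1 : width P ε ≤ 1 := by
    obtain ⟨h1, -⟩ := pAt_mem hI hN (a := ε) (by linarith)
    obtain ⟨-, h2⟩ := pAt_mem hI hN (a := 1 - ε) (by linarith)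
    unfold width; linarith
  by_cases hsmall : n < n₀
  · refine hw1.trans ((one_le_div hlθ).2 (le_max_of_le_right ?_))
    refine Real.rpow_le_rpow hlog.le (Real.log_le_log (by linarith) ?_) hθ.le
    have : (n : ℝ) ≤ n₀ := by exact_mod_cast hsmall.le
    linarith
  push Not at hsmall
  set δ := 38 * (n : ℝ) ^ (-a) with hδdef
  have hna : 0 < (n : ℝ) ^ (-a) := Real.rpow_pos_of_pos (by linarith) _
  set M := c0 * Real.log (n : ℝ) ^ θ with hMdef
  have hδle : 2 * δ ≤ 76 * (θ / a) ^ θ / Real.log (n : ℝ) ^ θ := by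
    rw [le_div_iff₀ hlθ]
    have h := log_rpow_le hθ ha (show (1 : ℝ) ≤ n by linarith)
    have hcancel : (n : ℝ) ^ (-a) * (n : ℝ) ^ a = 1 := by
      rw [← Real.rpow_add (by linarith)]; simp
    calc 2 * δ * Real.log (n : ℝ) ^ θ
        ≤ 2 * δ * ((θ / a) ^ θ * (n : ℝ) ^ a) := by gcongr
      _ = 76 * (θ / a) ^ θ * ((n : ℝ) ^ (-a) * (n : ℝ) ^ a) := by ring
      _ = 76 * (θ / a) ^ θ := by rw [hcancel, mul_one]
  by_cases hbig : 1 / 2 < δ
  · refine hw1.trans ?_
    have hC : 76 * (θ / a) ^ θ ≤ C := le_max_of_le_left (by linarith [one_div_pos.2 hc0])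
    calc (1 : ℝ) ≤ 2 * δ := by linarith
      _ ≤ 76 * (θ / a) ^ θ / Real.log (n : ℝ) ^ θ := hδle
      _ ≤ C / Real.log (n : ℝ) ^ θ := by gcongr
  push Not at hbig
  refine (width_le hI hN hε hε1 (δ := δ) (by positivity) (M := M) (by positivity) ?_).trans ?_
  · intro p hp0 hp1 hδp hp1δ hmu0 hmu1
    exact deriv_lower hε hε1 ha hθ hn2 hp0 hp1 hδp hp1δ hbig hmu0 hmu1
      (fun h => hmain n hsmall P hinv p hp0 hp1 h)
  · calc 1 / M + 2 * δ ≤ 1 / M + 76 * (θ / a) ^ θ / Real.log (n : ℝ) ^ θ := by linarith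
      _ = (1 / c0 + 76 * (θ / a) ^ θ) / Real.log (n : ℝ) ^ θ := by
          rw [hMdef]; field_simp
      _ ≤ C / Real.log (n : ℝ) ^ θ := by gcongr; exact le_max_left _ _

end Vale.Agent.P063
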