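import Vale.Agent.P063.LowMassDefs
import Vale.Agent.P063.Width

/-!
The fourth moment of the low part of a derivative (module C1).

The low part is grouped by the set `T` of vertices outside the distinguished coordinate. Invariance
makes all groups with equally many vertices equally heavy. The sum over quadruples of vertex sets
factorises over the vertices, as every vertex carries its own weight.
-/

open Finset
open scoped Classical

namespace Vale.Agent.P063

set_option linter.unusedSectionVars false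
set_option linter.unusedVariables false

section general

variable {ι : Type*} [Fintype ι] {p : ℝ}

/-- Coefficients at sets using an irrelevant coordinate vanish. -/
lemma coef_zero_of_dependsOnly (hp0 : 0 < p) (hp1 : p < 1) {h : (ι → Bool) → ℝ} {A S : Finset ι}
    (hd : DependsOnly h A) {i : ι} (hiS : i ∈ S) (hiA : i ∉ A) : coef p h S = 0 := by
  have h1 := deriv_coef hp0 hp1 h i (S.erase i)
  have h2 : (fun x => Real.sqrt (p * (1 - p)) *
      (h (Function.update x i true) - h (Function.update x i false))) = fun _ => (0 : ℝ) := by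
    funext x
    rw [hd (Function.update x i true) (Function.update x i false), sub_self, mul_zero]
    intro j hj
    have : j ≠ i := fun e => hiA (e ▸ hj)
    simp [Function.update_of_ne this]
  rw [h2, if_neg (notMem_erase i S), insert_erase hiS] at h1
  rw [← h1]
  simp [coef, ev]

lemma coef_map_of_invariant (P : (ι → Bool) → Bool) (π : Equiv.Perm ι)
    (hinv : ∀ x, P (fun i => x (π i)) = P x) (S : Finset ι) :
    coef p (ind P) (S.map π.toEmbedding) = coef p (ind P) S := by
  unfold coef ev
  refine Fintype.sum_equiv (Equiv.arrowCongr π.symm (Equiv.refl Bool)) _ _ fun x => ?_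
  have hy : (Equiv.arrowCongr π.symm (Equiv.refl Bool)) x = fun i => x (π i) := by
    funext i; simp
  have hw : wt p (fun i => x (π i)) = wt p x :=
    Equiv.prod_comp π (fun i => if x i then p else 1 - p)
  rw [hy, hw]
  simp only [ind, chi_def, prod_map, Equiv.coe_toEmbedding, hinv x]

lemma one_le_base (hp0 : 0 < p) (hp1 : p < 1) : 1 ≤ base p := by
  have hpq : 0 < p * (1 - p) := mul_pos hp0 (by linarith)
  rw [base, le_div_iff₀ hpq]
  nlinarith [sq_nonneg (p - 1 / 2)]

end general

section groups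

variable {ι V : Type} [Fintype ι] [Fintype V] [DecidableEq V]
  (part : ι → Finset V) (p : ℝ) (f : (ι → Bool) → ℝ) (t Δ : ℕ) (e : ι)

/-- The coefficient of the group `T` at `S`. -/
noncomputable def grpCoef (T : Finset V) (S : Finset ι) : ℝ :=
  if e ∉ S ∧ LowSet part t Δ (insert e S) ∧ (insert e S).biUnion part \ part e = T then
    coef p f (insert e S) else 0

/-- The group `T` of the low part. -/
noncomputable def grp (T : Finset V) (x : ι → Bool) : ℝ :=
  ∑ S : Finset ι, grpCoef part p f t Δ e T S * chi p S x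

/-- The weight of the group `T`. -/
noncomputable def grpMass (T : Finset V) : ℝ :=
  ∑ S : Finset ι, grpCoef part p f t Δ e T S ^ 2

/-- The coordinates available to the group `T`. -/
noncomputable def grpSupp (T : Finset V) : Finset ι :=
  univ.filter fun i => part i ⊆ T ∪ part e

lemma grpCoef_ne_zero {T : Finset V} {S : Finset ι} (h : grpCoef part p f t Δ e T S ≠ 0) :
    e ∉ S ∧ LowSet part t Δ (insert e S) ∧ (insert e S).biUnion part \ part e = T := by
  unfold grpCoef at h
  by_contra hc
  exact h (if_neg hc)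

lemma lowPart_eq_sum_grp (x : ι → Bool) :
    lowPart p f part t Δ e x = ∑ T : Finset V, grp part p f t Δ e T x := by
  simp only [grp]
  rw [sum_comm]
  have h : ∀ S : Finset ι, ∑ T : Finset V, grpCoef part p f t Δ e T S * chi p S x =
      if e ∉ S ∧ LowSet part t Δ (insert e S) then coef p f (insert e S) * chi p S x else 0 := by
    intro S
    by_cases hc : e ∉ S ∧ LowSet part t Δ (insert e S)
    · rw [if_pos hc, sum_eq_single ((insert e S).biUnion part \ part e)]
      · unfold grpCoef
        rw [if_pos ⟨hc.1, hc.2, rfl⟩]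
      · intro T _ hT
        unfold grpCoef
        rw [if_neg fun h => hT h.2.2.symm, zero_mul]
      · simp
    · rw [if_neg hc]
      refine sum_eq_zero fun T _ => ?_
      unfold grpCoef
      rw [if_neg fun h => hc ⟨h.1, h.2.1⟩, zero_mul]
  simp only [h, lowPart]
  rw [← sum_filter, ← sum_filter]
  refine sum_nbij' (fun S => S.erase e) (fun S => insert e S) ?_ ?_ ?_ ?_ ?_
  · intro S hS
    simp only [mem_filter, mem_univ, true_and] at hS ⊢
    exact ⟨notMem_erase e S, by rw [insert_erase hS.1]; exact hS.2⟩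
  · intro S hS
    simp only [mem_filter, mem_univ, true_and] at hS ⊢
    exact ⟨mem_insert_self e S, hS.2⟩
  · intro S hS
    simp only [mem_filter, mem_univ, true_and] at hS
    exact insert_erase hS.1
  · intro S hS
    simp only [mem_filter, mem_univ, true_and] at hS
    exact erase_insert hS.1
  · intro S hS
    simp only [mem_filter, mem_univ, true_and] at hS
    rw [insert_erase hS.1]

lemma ev_grp_sq (hp0 : 0 < p) (hp1 : p < 1) (T : Finset V) :
    ev p (fun x => grp part p f t Δ e T x ^ 2) = grpMass part p f t Δ e T := by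
  rw [parseval hp0 hp1]
  unfold grp grpMass
  simp only [coef_expansion hp0 hp1]

lemma ev_lowPart_sq (hp0 : 0 < p) (hp1 : p < 1) :
    ev p (fun x => lowPart p f part t Δ e x ^ 2) = ∑ T : Finset V, grpMass part p f t Δ e T := by
  rw [parseval hp0 hp1]
  have h : lowPart p f part t Δ e = fun x => ∑ S : Finset ι,
      (∑ T : Finset V, grpCoef part p f t Δ e T S) * chi p S x := by
    funext x
    rw [lowPart_eq_sum_grp part p f t Δ e x]
    simp only [grp, sum_mul]
    exact sum_comm
  rw [h]
  simp only [coef_expansion hp0 hp1, grpMass]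
  rw [sum_comm (γ := Finset V)]
  refine sum_congr rfl fun S _ => ?_
  have hz : ∀ T ∈ (univ : Finset (Finset V)), T ≠ (insert e S).biUnion part \ part e →
      grpCoef part p f t Δ e T S = 0 := by
    intro T _ hT
    unfold grpCoef
    rw [if_neg fun h => hT h.2.2.symm]
  rw [sum_eq_single _ hz (by simp),
    sum_eq_single (f := fun T => grpCoef part p f t Δ e T S ^ 2)
      ((insert e S).biUnion part \ part e) (fun T hT hne => by simp [hz T hT hne]) (by simp)]

lemma grpMass_nonneg (T : Finset V) : 0 ≤ grpMass part p f t Δ e T :=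
  sum_nonneg fun S _ => sq_nonneg _

lemma grp_eq_zero {T : Finset V} (h : ¬ (Disjoint T (part e) ∧ T.card ≤ t)) (x : ι → Bool) :
    grp part p f t Δ e T x = 0 := by
  refine sum_eq_zero fun S _ => ?_
  by_cases h0 : grpCoef part p f t Δ e T S = 0
  · rw [h0, zero_mul]
  obtain ⟨-, hlow, hT⟩ := grpCoef_ne_zero part p f t Δ e h0
  refine absurd ⟨?_, ?_⟩ h
  · rw [← hT]; exact disjoint_sdiff_self_left
  · rw [← hT]; exact (card_le_card sdiff_subset).trans hlow.2.1

lemma grp_dependsOnly (hp0 : 0 < p) (hp1 : p < 1) (T : Finset V) :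
    DependsOnly (grp part p f t Δ e T) (grpSupp part e T) := by
  refine dependsOnly_of_coef hp0 hp1 fun S hS => ?_
  unfold grp
  rw [coef_expansion hp0 hp1]
  by_contra h0
  obtain ⟨-, -, hT⟩ := grpCoef_ne_zero part p f t Δ e h0
  refine hS fun i hi => ?_
  simp only [grpSupp, mem_filter, mem_univ, true_and]
  intro u hu
  by_cases hue : u ∈ part e
  · exact mem_union_right _ hue
  · refine mem_union_left _ ?_
    rw [← hT]
    exact mem_sdiff.2 ⟨mem_biUnion.2 ⟨i, mem_insert_of_mem hi, hu⟩, hue⟩

/-- Products of groups with a vertex used once have mean zero. -/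
lemma ev_prod_grp_eq_zero (hp0 : 0 < p) (hp1 : p < 1) (T : Fin 4 → Finset V) {u : V} {k : Fin 4}
    (huk : u ∈ T k) (honly : ∀ j, j ≠ k → u ∉ T j) :
    ev p (fun x => ∏ j, grp part p f t Δ e (T j) x) = 0 := by
  set H := fun x => ∏ j ∈ univ.erase k, grp part p f t Δ e (T j) x with hH
  have hsplit : (fun x => ∏ j, grp part p f t Δ e (T j) x) =
      fun x => grp part p f t Δ e (T k) x * H x := by
    funext x; exact (mul_prod_erase univ _ (mem_univ k)).symm
  rw [hsplit, parseval_mul hp0 hp1]
  refine sum_eq_zero fun S _ => ?_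
  unfold grp
  rw [coef_expansion hp0 hp1]
  by_cases h0 : grpCoef part p f t Δ e (T k) S = 0
  · rw [h0, zero_mul]
  obtain ⟨-, -, hT⟩ := grpCoef_ne_zero part p f t Δ e h0
  rw [← hT, mem_sdiff, mem_biUnion] at huk
  obtain ⟨⟨i, hi, hui⟩, hue⟩ := huk
  have hiS : i ∈ S := by
    rcases mem_insert.1 hi with h | h
    · exact absurd (h ▸ hui) hue
    · exact h
  have hd : DependsOnly H ((univ.erase k).biUnion fun j => grpSupp part e (T j)) := by
    intro x y hxy
    refine prod_congr rfl fun j hj => grp_dependsOnly part p f t Δ e hp0 hp1 (T j) x y fun i' hi' => ?_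
    exact hxy i' (mem_biUnion.2 ⟨j, hj, hi'⟩)
  rw [coef_zero_of_dependsOnly hp0 hp1 hd hiS, mul_zero]
  simp only [mem_biUnion, not_exists, not_and, grpSupp, mem_filter, mem_univ, true_and]
  intro j hj hsub
  rcases mem_union.1 (hsub hui) with h | h
  · exact honly j (ne_of_mem_erase hj) h
  · exact hue h

/-- The vertices used at least three times. -/
def heavy (T : Fin 4 → Finset V) : Finset V :=
  univ.filter fun u => 3 ≤ (univ.filter fun k => u ∈ T k).card

/-- The product bound for one quadruple. -/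
lemma quad_bound (hB : FourProduct) (hp0 : 0 < p) (hp1 : p < 1)
    (hpart : ∀ i, (part i).Nonempty) {r : ℕ} (hr : (part e).card ≤ r) (T : Fin 4 → Finset V) :
    |ev p (fun x => ∏ j, grp part p f t Δ e (T j) x)| ≤
      base p ^ ((heavy T).card * Δ + r * Δ) *
        ∏ j, Real.sqrt (grpMass part p f t Δ e (T j)) := by
  set A : Finset ι := univ.filter fun i => part i ⊆ heavy T ∪ part e with hA
  have h := hB ι p hp0 hp1 (fun j => grp part p f t Δ e (T j)) (fun j => grpSupp part e (T j)) A
    ((heavy T).card * Δ + r * Δ) (fun j => grp_dependsOnly part p f t Δ e hp0 hp1 (T j)) ?_ ?_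
  · simpa only [ev_grp_sq part p f t Δ e hp0 hp1] using h
  · intro j S hS
    unfold grp at hS
    rw [coef_expansion hp0 hp1] at hS
    obtain ⟨-, hlow, -⟩ := grpCoef_ne_zero part p f t Δ e hS
    have hsub : S ∩ A ⊆ (heavy T ∪ part e).biUnion fun u =>
        (insert e S).filter fun i => u ∈ part i := by
      intro i hi
      obtain ⟨hiS, hiA⟩ := mem_inter.1 hi
      obtain ⟨u, hu⟩ := hpart i
      exact mem_biUnion.2 ⟨u, (mem_filter.1 hiA).2 hu, mem_filter.2 ⟨mem_insert_of_mem hiS, hu⟩⟩
    refine (card_le_card hsub).trans ((card_biUnion_le_card_mul _ _ Δ ?_).trans ?_)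
    · intro u _
      by_cases hu : u ∈ (insert e S).biUnion part
      · exact hlow.2.2 u hu
      · rw [filter_eq_empty_iff.2 fun i hi h => hu (mem_biUnion.2 ⟨i, hi, h⟩)]
        exact Nat.zero_le _
    · rw [← add_mul]
      exact Nat.mul_le_mul_right _ ((card_union_le _ _).trans (Nat.add_le_add_left hr _))
  · intro i hi
    simp only [hA, mem_filter, mem_univ, true_and, not_subset] at hi
    obtain ⟨u, hui, hu⟩ := hi
    rw [mem_union, not_or] at hu
    refine le_trans (card_le_card (t := univ.filter fun k => u ∈ T k) ?_)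
      (Nat.le_of_lt_succ (not_le.1 ?_))
    · intro k hk
      simp only [grpSupp, mem_filter, mem_univ, true_and] at hk ⊢
      exact (mem_union.1 (hk hui)).resolve_right hu.2
    · intro h3
      exact hu.1 (mem_filter.2 ⟨mem_univ u, h3⟩)

end groups

section symmetry

variable {ι V : Type} [Fintype ι] [Fintype V] [DecidableEq V] {part : ι → Finset V}
  {act : Equiv.Perm V → Equiv.Perm ι} {P : (ι → Bool) → Bool} {p : ℝ} {t Δ : ℕ} {e : ι}

lemma grpMass_map_le (hmap : ∀ σ i, part (act σ i) = (part i).map σ.toEmbedding)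
    (hinv : ∀ σ x, P (fun i => x (act σ i)) = P x)
    (hfix : ∀ σ i, (∀ u ∈ part i, σ u = u) → act σ i = i)
    (σ : Equiv.Perm V) (hσ : ∀ u ∈ part e, σ u = u) (T : Finset V) :
    grpMass part p (ind P) t Δ e T ≤ grpMass part p (ind P) t Δ e (T.map σ.toEmbedding) := by
  have he : act σ e = e := hfix σ e hσ
  unfold grpMass
  have key : ∀ S : Finset ι, grpCoef part p (ind P) t Δ e T S ≠ 0 →
      grpCoef part p (ind P) t Δ e T S =
        grpCoef part p (ind P) t Δ e (T.map σ.toEmbedding) (S.map (act σ).toEmbedding) := by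
    intro S hS
    obtain ⟨h1, h2, h3⟩ := grpCoef_ne_zero part p (ind P) t Δ e hS
    have hins : insert e (S.map (act σ).toEmbedding) = (insert e S).map (act σ).toEmbedding := by
      rw [map_insert]; simp [he]
    have hbi : ((insert e S).map (act σ).toEmbedding).biUnion part =
        ((insert e S).biUnion part).map σ.toEmbedding := by
      ext v
      simp only [mem_biUnion, mem_map, Equiv.coe_toEmbedding]
      constructor
      · rintro ⟨_, ⟨i, hi, rfl⟩, hv⟩
        rw [hmap, mem_map] at hv
        obtain ⟨u, hu, rfl⟩ := hv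
        exact ⟨u, ⟨i, hi, hu⟩, rfl⟩
      · rintro ⟨u, ⟨i, hi, hu⟩, rfl⟩
        exact ⟨act σ i, ⟨i, hi, rfl⟩, by rw [hmap]; exact mem_map_of_mem _ hu⟩
    have hpe : (part e).map σ.toEmbedding = part e := by rw [← hmap, he]
    have hlow : LowSet part t Δ ((insert e S).map (act σ).toEmbedding) := by
      refine ⟨h2.1.map, by rw [hbi, card_map]; exact h2.2.1, fun v hv => ?_⟩
      rw [hbi, mem_map] at hv
      obtain ⟨u, hu, rfl⟩ := hv
      refine le_trans (le_of_eq ?_) (h2.2.2 u hu)
      rw [filter_map, card_map]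
      congr 1
      refine filter_congr fun i _ => ?_
      simp only [Function.comp_apply, Equiv.coe_toEmbedding, hmap]
      simp
    have hne : e ∉ S.map (act σ).toEmbedding := by
      intro hm
      obtain ⟨i, hi, hie⟩ := mem_map.1 hm
      exact h1 ((act σ).injective (hie.trans he.symm) ▸ hi)
    unfold grpCoef
    rw [if_pos ⟨h1, h2, h3⟩, hins, if_pos ⟨hne, hlow, by rw [hbi, ← h3, Finset.map_sdiff, hpe]⟩,
      coef_map_of_invariant P (act σ) (hinv σ)]
  have hle : ∀ S : Finset ι, grpCoef part p (ind P) t Δ e T S ^ 2 ≤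
      grpCoef part p (ind P) t Δ e (T.map σ.toEmbedding) (S.map (act σ).toEmbedding) ^ 2 := by
    intro S
    by_cases h : grpCoef part p (ind P) t Δ e T S = 0
    · rw [h]; simp [sq_nonneg]
    · rw [← key S h]
  refine (sum_le_sum fun S _ => hle S).trans ?_
  calc ∑ S : Finset ι,
        grpCoef part p (ind P) t Δ e (T.map σ.toEmbedding) (S.map (act σ).toEmbedding) ^ 2
      = ∑ S ∈ (univ : Finset (Finset ι)).image (fun S => S.map (act σ).toEmbedding),
          grpCoef part p (ind P) t Δ e (T.map σ.toEmbedding) S ^ 2 :=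
        (sum_image (f := fun S => grpCoef part p (ind P) t Δ e (T.map σ.toEmbedding) S ^ 2)
          (g := fun S => S.map (act σ).toEmbedding) (fun _ _ _ _ h => map_injective _ h)).symm
    _ ≤ _ := sum_le_univ_sum_of_nonneg fun S => sq_nonneg _

lemma grpMass_le_of_card_eq (hmap : ∀ σ i, part (act σ i) = (part i).map σ.toEmbedding)
    (hinv : ∀ σ x, P (fun i => x (act σ i)) = P x)
    (hfix : ∀ σ i, (∀ u ∈ part i, σ u = u) → act σ i = i) :
    ∀ (d : ℕ) (T T' : Finset V), (T \ T').card = d → T.card = T'.card →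
      Disjoint T (part e) → Disjoint T' (part e) →
      grpMass part p (ind P) t Δ e T ≤ grpMass part p (ind P) t Δ e T' := by
  intro d
  induction d with
  | zero =>
    intro T T' h0 hc _ _
    have : T = T' := eq_of_subset_of_card_le (sdiff_eq_empty_iff_subset.1 (card_eq_zero.1 h0)) hc.ge
    rw [this]
  | succ d ih =>
    intro T T' hd hc hT hT'
    obtain ⟨a, ha⟩ : (T \ T').Nonempty := card_pos.1 (by omega)
    have hd' : (T' \ T).card = (T \ T').card := by
      have e1 := card_sdiff_add_card_inter T T'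
      have e2 := card_sdiff_add_card_inter T' T
      rw [inter_comm] at e2
      omega
    obtain ⟨b, hb⟩ : (T' \ T).Nonempty := card_pos.1 (by omega)
    obtain ⟨haT, haT'⟩ := mem_sdiff.1 ha
    obtain ⟨hbT', hbT⟩ := mem_sdiff.1 hb
    have hae : a ∉ part e := disjoint_left.1 hT haT
    have hbe : b ∉ part e := disjoint_left.1 hT' hbT'
    have hmapT : T.map (Equiv.swap a b).toEmbedding = insert b (T.erase a) := by
      ext v
      simp only [mem_map_equiv, Equiv.symm_swap, mem_insert, mem_erase]
      by_cases hva : v = a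
      · subst hva; rw [Equiv.swap_apply_left]
        have : v ≠ b := fun h => hbT (h ▸ haT)
        simp [hbT, this]
      · by_cases hvb : v = b
        · subst hvb; rw [Equiv.swap_apply_right]; simp [haT]
        · rw [Equiv.swap_apply_of_ne_of_ne hva hvb]; simp [hva, hvb]
    refine (grpMass_map_le hmap hinv hfix (Equiv.swap a b) (fun u hu => ?_) T).trans ?_
    · exact Equiv.swap_apply_of_ne_of_ne (fun h => hae (h ▸ hu)) (fun h => hbe (h ▸ hu))
    rw [hmapT]
    refine ih _ T' ?_ ?_ ?_ hT'
    · rw [insert_sdiff_of_mem _ hbT', erase_sdiff_comm, card_erase_of_mem ha, hd]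
      omega
    · rw [card_insert_of_notMem (fun h => hbT (mem_of_mem_erase h)), card_erase_of_mem haT, ← hc]
      have := card_pos.2 ⟨a, haT⟩
      omega
    · rw [disjoint_insert_left]
      exact ⟨hbe, disjoint_of_subset_left (erase_subset a T) hT⟩

/-- A group is light, as there are many of its size. -/
lemma grpMass_small (hmap : ∀ σ i, part (act σ i) = (part i).map σ.toEmbedding)
    (hinv : ∀ σ x, P (fun i => x (act σ i)) = P x)
    (hfix : ∀ σ i, (∀ u ∈ part i, σ u = u) → act σ i = i) {T : Finset V}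
    (hT : Disjoint T (part e)) (hs : T.card ≤ t)
    (hw : (Fintype.card V : ℝ) / 4 + t + (part e).card ≤ Fintype.card V + 1) :
    grpMass part p (ind P) t Δ e T * ((Fintype.card V : ℝ) / 4) ^ T.card ≤
      (∑ T' : Finset V, grpMass part p (ind P) t Δ e T') * (t : ℝ) ^ T.card := by
  set s := T.card
  set w' := (univ \ part e).card
  have hsub : (part e).card + w' = Fintype.card V := by
    have := card_le_univ (part e)
    simp only [w', card_univ_sdiff]
    omega
  have hm : (w'.choose s : ℝ) * grpMass part p (ind P) t Δ e T ≤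
      ∑ T' : Finset V, grpMass part p (ind P) t Δ e T' := by
    calc (w'.choose s : ℝ) * grpMass part p (ind P) t Δ e T
        = ∑ T' ∈ (univ \ part e).powersetCard s, grpMass part p (ind P) t Δ e T := by
          rw [sum_const, card_powersetCard, nsmul_eq_mul]
      _ ≤ ∑ T' ∈ (univ \ part e).powersetCard s, grpMass part p (ind P) t Δ e T' := by
          refine sum_le_sum fun T' hT' => ?_
          obtain ⟨h1, h2⟩ := mem_powersetCard.1 hT'
          exact grpMass_le_of_card_eq hmap hinv hfix _ T T' rfl h2.symm hT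
            (disjoint_of_subset_left h1 disjoint_sdiff_self_left)
      _ ≤ _ := sum_le_univ_sum_of_nonneg fun T' => grpMass_nonneg part p (ind P) t Δ e T'
  have hst : (s : ℝ) ≤ t := by exact_mod_cast hs
  have hle : s ≤ w' + 1 := by
    have h1 : (s : ℝ) ≤ (w' : ℝ) + 1 := by
      have : ((part e).card : ℝ) + w' = Fintype.card V := by exact_mod_cast hsub
      have : (0 : ℝ) ≤ Fintype.card V := Nat.cast_nonneg _
      linarith
    exact_mod_cast h1
  have hch : ((Fintype.card V : ℝ) / 4) ^ s ≤ (w'.choose s : ℝ) * (t : ℝ) ^ s := by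
    have h1 : ((w' + 1 - s : ℕ) : ℝ) ^ s ≤ (s.factorial : ℝ) * (w'.choose s : ℝ) := by
      have := Nat.pow_sub_le_descFactorial w' s
      rw [Nat.descFactorial_eq_factorial_mul_choose] at this
      exact_mod_cast this
    have h2 : (s.factorial : ℝ) ≤ (t : ℝ) ^ s := by
      have h : (s.factorial : ℝ) ≤ (s : ℝ) ^ s := by exact_mod_cast Nat.factorial_le_pow s
      exact h.trans (pow_le_pow_left₀ (Nat.cast_nonneg s) hst s)
    have h3 : (Fintype.card V : ℝ) / 4 ≤ ((w' + 1 - s : ℕ) : ℝ) := by
      have h4 : ((part e).card : ℝ) + w' = Fintype.card V := by exact_mod_cast hsub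
      rw [Nat.cast_sub hle]
      push_cast
      linarith
    calc ((Fintype.card V : ℝ) / 4) ^ s ≤ ((w' + 1 - s : ℕ) : ℝ) ^ s :=
          pow_le_pow_left₀ (by positivity) h3 s
      _ ≤ (s.factorial : ℝ) * (w'.choose s : ℝ) := h1
      _ ≤ (t : ℝ) ^ s * (w'.choose s : ℝ) := by gcongr
      _ = _ := mul_comm _ _
  have hm0 := grpMass_nonneg part p (ind P) t Δ e T
  calc grpMass part p (ind P) t Δ e T * ((Fintype.card V : ℝ) / 4) ^ s
      ≤ grpMass part p (ind P) t Δ e T * ((w'.choose s : ℝ) * (t : ℝ) ^ s) := by gcongr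
    _ = (w'.choose s : ℝ) * grpMass part p (ind P) t Δ e T * (t : ℝ) ^ s := by ring
    _ ≤ _ := by gcongr

end symmetry

section count

variable {V : Type} [Fintype V] [DecidableEq V]

/-- The weight of one vertex with membership pattern `π`. -/
noncomputable def patWt (b Y : ℝ) (π : Finset (Fin 4)) : ℝ :=
  if π.card = 1 then 0 else b ^ π.card * if 3 ≤ π.card then Y else 1

lemma sum_patWt (b Y : ℝ) :
    ∑ π : Finset (Fin 4), patWt b Y π = 1 + 6 * b ^ 2 + Y * (4 * b ^ 3 + b ^ 4) := by
  rw [← powerset_univ]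
  unfold patWt
  rw [sum_powerset_apply_card (fun m : ℕ => if m = 1 then 0 else b ^ m * if 3 ≤ m then Y else 1)]
  simp [sum_range_succ, Nat.choose]
  ring

/-- The weight of a vertex, which must be unused inside `E`. -/
noncomputable def vtxWt (b Y : ℝ) (E : Finset V) (u : V) (π : Finset (Fin 4)) : ℝ :=
  if u ∈ E then (if π = ∅ then 1 else 0) else patWt b Y π

lemma vtxWt_nonneg {b Y : ℝ} (hb : 0 ≤ b) (hY : 0 ≤ Y) (E : Finset V) (u : V)
    (π : Finset (Fin 4)) : 0 ≤ vtxWt b Y E u π := by
  unfold vtxWt patWt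
  split_ifs <;> positivity

/-- The sum over all quadruples factorises over the vertices. -/
lemma sum_quads (b Y : ℝ) (E : Finset V) :
    ∑ T : Fin 4 → Finset V, ∏ u, vtxWt b Y E u (univ.filter fun k => u ∈ T k) =
      (1 + 6 * b ^ 2 + Y * (4 * b ^ 3 + b ^ 4)) ^ (univ \ E).card := by
  let eqv : (Fin 4 → Finset V) ≃ (V → Finset (Fin 4)) :=
    { toFun := fun T u => univ.filter fun k => u ∈ T k
      invFun := fun g k => univ.filter fun u => k ∈ g u
      left_inv := fun T => by ext k u; simp
      right_inv := fun g => by ext u k; simp }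
  refine (Fintype.sum_equiv eqv _ (fun g => ∏ u, vtxWt b Y E u (g u)) (fun T => rfl)).trans ?_
  rw [← Fintype.prod_sum, ← prod_sdiff (subset_univ E)]
  have h1 : ∏ u ∈ E, ∑ π : Finset (Fin 4), vtxWt b Y E u π = 1 := by
    refine prod_eq_one fun u hu => ?_
    simp [vtxWt, hu]
  have h2 : ∀ u ∈ univ \ E, ∑ π : Finset (Fin 4), vtxWt b Y E u π =
      1 + 6 * b ^ 2 + Y * (4 * b ^ 3 + b ^ 4) := by
    intro u hu
    rw [← sum_patWt]
    exact sum_congr rfl fun π _ => if_neg (mem_sdiff.1 hu).2
  rw [h1, mul_one, prod_congr rfl h2, prod_const]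

/-- The weight of a good quadruple. -/
lemma prod_vtxWt {b Y : ℝ} {E : Finset V} {T : Fin 4 → Finset V} (hE : ∀ k, Disjoint (T k) E)
    (h1 : ∀ u, (univ.filter fun k => u ∈ T k).card ≠ 1) :
    ∏ u, vtxWt b Y E u (univ.filter fun k => u ∈ T k) =
      (∏ k, b ^ (T k).card) * Y ^ (heavy T).card := by
  have h : ∀ u, vtxWt b Y E u (univ.filter fun k => u ∈ T k) =
      (∏ k, if u ∈ T k then b else 1) *
        (if 3 ≤ (univ.filter fun k => u ∈ T k).card then Y else 1) := by
    intro u
    rw [← prod_filter, prod_const]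
    unfold vtxWt patWt
    by_cases hu : u ∈ E
    · have h0 : (univ.filter fun k => u ∈ T k) = ∅ :=
        filter_eq_empty_iff.2 fun k _ hk => disjoint_left.1 (hE k) hk hu
      rw [if_pos hu, h0]
      simp
    · rw [if_neg hu, if_neg (h1 u)]
  simp only [h, prod_mul_distrib]
  congr 1
  · rw [prod_comm]
    exact prod_congr rfl fun k _ => by rw [prod_ite_mem, univ_inter, prod_const]
  · rw [heavy, ← prod_filter, prod_const]

end count

section main

variable {ι V : Type} [Fintype ι] [Fintype V] [DecidableEq V] {part : ι → Finset V}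
  {act : Equiv.Perm V → Equiv.Perm ι} {P : (ι → Bool) → Bool} {p : ℝ} {t Δ r : ℕ} {e : ι}

/-- The fourth moment is at most the generating function. -/
lemma fourth_le (hB : FourProduct) (hp0 : 0 < p) (hp1 : p < 1)
    (hpart : ∀ i, (part i).Nonempty ∧ (part i).card ≤ r)
    (hmap : ∀ σ i, part (act σ i) = (part i).map σ.toEmbedding)
    (hinv : ∀ σ x, P (fun i => x (act σ i)) = P x)
    (hfix : ∀ σ i, (∀ u ∈ part i, σ u = u) → act σ i = i)
    (hw : (Fintype.card V : ℝ) / 4 + t + r ≤ Fintype.card V + 1)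
    {b : ℝ} (hb : 0 ≤ b) (hb2 : b ^ 2 * ((Fintype.card V : ℝ) / 4) = t) :
    ev p (fun x => lowPart p (ind P) part t Δ e x ^ 4) ≤
      base p ^ (r * Δ) *
        (1 + 6 * b ^ 2 + base p ^ Δ * (4 * b ^ 3 + b ^ 4)) ^ (univ \ part e).card *
          ev p (fun x => lowPart p (ind P) part t Δ e x ^ 2) ^ 2 := by
  set G := grp part p (ind P) t Δ e with hG
  have hK : 1 ≤ base p := one_le_base hp0 hp1
  have hK0 : (0 : ℝ) ≤ base p := zero_le_one.trans hK
  rw [ev_lowPart_sq part p (ind P) t Δ e hp0 hp1]
  set M := ∑ T : Finset V, grpMass part p (ind P) t Δ e T with hMdef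
  have hM0 : 0 ≤ M := sum_nonneg fun T _ => grpMass_nonneg part p (ind P) t Δ e T
  have hexp : ∀ x, lowPart p (ind P) part t Δ e x ^ 4 =
      ∑ T : Fin 4 → Finset V, ∏ j, G (T j) x := by
    intro x
    rw [lowPart_eq_sum_grp part p (ind P) t Δ e x, ← Fin.prod_const, Fintype.prod_sum]
  simp only [hexp]
  rw [ev_sum, ← sum_quads b (base p ^ Δ) (part e)]
  rw [mul_sum, sum_mul]
  refine sum_le_sum fun T _ => ?_
  have hnn : 0 ≤ base p ^ (r * Δ) *
      (∏ u, vtxWt b (base p ^ Δ) (part e) u (univ.filter fun k => u ∈ T k)) * M ^ 2 :=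
    mul_nonneg (mul_nonneg (pow_nonneg hK0 _)
      (prod_nonneg fun u _ => vtxWt_nonneg hb (pow_nonneg hK0 _) _ _ _)) (sq_nonneg M)
  by_cases hgood : ∀ k, Disjoint (T k) (part e) ∧ (T k).card ≤ t
  swap
  · push Not at hgood
    obtain ⟨k, hk⟩ := hgood
    have hz : (fun x => ∏ j, G (T j) x) = fun _ => (0 : ℝ) := by
      funext x
      exact prod_eq_zero (mem_univ k)
        (grp_eq_zero part p (ind P) t Δ e (fun h => absurd h.2 (not_le.2 (hk h.1))) x)
    rw [hz, ev_const]
    exact hnn
  by_cases hone : ∃ u, (univ.filter fun k => u ∈ T k).card = 1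
  · obtain ⟨u, hu⟩ := hone
    obtain ⟨k, hk⟩ := card_eq_one.1 hu
    have hmem : ∀ j, u ∈ T j ↔ j = k := by
      intro j
      simpa using Finset.ext_iff.1 hk j
    rw [ev_prod_grp_eq_zero part p (ind P) t Δ e hp0 hp1 T ((hmem k).2 rfl)
      (fun j hj h => hj ((hmem j).1 h))]
    exact hnn
  push Not at hone
  rw [prod_vtxWt (fun k => (hgood k).1) hone]
  refine (le_abs_self _).trans ((quad_bound part p (ind P) t Δ e hB hp0 hp1
    (fun i => (hpart i).1) (hpart e).2 T).trans ?_)
  have hsq : ∀ j, Real.sqrt (grpMass part p (ind P) t Δ e (T j)) ≤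
      Real.sqrt M * b ^ (T j).card := by
    intro j
    have hm := grpMass_small (Δ := Δ) (p := p) hmap hinv hfix (hgood j).1 (hgood j).2 (by
      have : ((part e).card : ℝ) ≤ r := by exact_mod_cast (hpart e).2
      linarith)
    rw [← Real.sqrt_sq (pow_nonneg hb (T j).card), ← Real.sqrt_mul hM0]
    refine Real.sqrt_le_sqrt ?_
    have hwpos : 0 < ((Fintype.card V : ℝ) / 4) ^ (T j).card := by
      have : 0 < Fintype.card V := by
        obtain ⟨u, hu⟩ := (hpart e).1
        exact Fintype.card_pos_iff.2 ⟨u⟩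
      positivity
    refine le_of_mul_le_mul_right (hm.trans (le_of_eq ?_)) hwpos
    rw [← hb2, mul_pow, ← pow_mul, ← pow_mul, mul_comm 2 ((T j).card)]
    ring
  have hpr := prod_le_prod (s := (univ : Finset (Fin 4))) (fun j _ => Real.sqrt_nonneg _)
    (fun j _ => hsq j)
  refine (mul_le_mul_of_nonneg_left hpr (pow_nonneg hK0 _)).trans (le_of_eq ?_)
  rw [prod_mul_distrib, prod_const, card_univ, Fintype.card_fin, pow_add,
    show Real.sqrt M ^ 4 = M ^ 2 by rw [show 4 = 2 * 2 from rfl, pow_mul, Real.sq_sqrt hM0],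
    ← pow_mul, mul_comm (heavy T).card Δ]
  ring

/-- Exponential bound for the generating function. -/
lemma gen_le {b Y w : ℝ} {k : ℕ} (hb : 0 ≤ b) (hb1 : b ≤ 1) (hY : 0 ≤ Y) (hk : (k : ℝ) ≤ w) :
    (1 + 6 * b ^ 2 + Y * (4 * b ^ 3 + b ^ 4)) ^ k ≤
      Real.exp (w * (6 * b ^ 2) + w * (5 * Y * b ^ 3)) := by
  have h4 : b ^ 4 ≤ b ^ 3 := pow_le_pow_of_le_one hb hb1 (by norm_num)
  calc (1 + 6 * b ^ 2 + Y * (4 * b ^ 3 + b ^ 4)) ^ k
      ≤ Real.exp (6 * b ^ 2 + 5 * Y * b ^ 3) ^ k := by
        refine pow_le_pow_left₀ (by positivity) ?_ k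
        have := Real.add_one_le_exp (6 * b ^ 2 + 5 * Y * b ^ 3)
        have := mul_le_mul_of_nonneg_left h4 hY
        linarith
    _ = Real.exp ((k : ℝ) * (6 * b ^ 2 + 5 * Y * b ^ 3)) := by rw [Real.exp_nat_mul]
    _ ≤ _ := by
        refine Real.exp_le_exp.2 ?_
        have : 0 ≤ 6 * b ^ 2 + 5 * Y * b ^ 3 := by positivity
        calc (k : ℝ) * (6 * b ^ 2 + 5 * Y * b ^ 3) ≤ w * (6 * b ^ 2 + 5 * Y * b ^ 3) :=
              mul_le_mul_of_nonneg_right hk this
          _ = _ := by ring

theorem fourthMoment (hB : FourProduct) : FourthMoment := by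
  intro r
  set c := 1 / (40 * ((r : ℝ) + 25)) with hcdef
  refine ⟨c, ⌈Real.exp 100⌉₊ + 8 * r, by positivity, ?_⟩
  intro ι V _ _ _ part act P p t Δ hw0 hpart hmap hinv hfix hp0 hp1 hhyp e
  set w : ℝ := (Fintype.card V : ℝ) with hwdef
  have hw0' : (⌈Real.exp 100⌉₊ : ℝ) + 8 * r ≤ w := by rw [hwdef]; exact_mod_cast hw0
  have hr0 : (0 : ℝ) ≤ r := Nat.cast_nonneg r
  have hexp : Real.exp 100 ≤ w := by linarith [Nat.le_ceil (Real.exp 100)]
  have hw1 : (101 : ℝ) ≤ w := by linarith [Real.add_one_le_exp (100 : ℝ)]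
  have hL : 100 ≤ Real.log w := (Real.le_log_iff_exp_le (by linarith)).2 hexp
  have hK : 1 ≤ base p := one_le_base hp0 hp1
  have hlK : 0 ≤ Real.log (base p) := Real.log_nonneg hK
  have hΔ : 0 ≤ (Δ : ℝ) * Real.log (base p) := mul_nonneg (Nat.cast_nonneg _) hlK
  have ht0 : (0 : ℝ) ≤ t := Nat.cast_nonneg t
  have hhyp' : (t : ℝ) + (Δ : ℝ) * Real.log (base p) ≤ c * Real.log w := by linarith
  have hden : 0 < 40 * ((r : ℝ) + 25) := by positivity
  have hc8 : c * Real.log w ≤ w / 1000 := by
    have h1 := Real.log_le_sub_one_of_pos (show 0 < w by linarith)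
    have h2 : c ≤ 1 / 1000 := by
      rw [hcdef]
      exact one_div_le_one_div_of_le (by norm_num) (by linarith)
    calc c * Real.log w ≤ 1 / 1000 * w :=
          mul_le_mul h2 (by linarith) (by linarith) (by norm_num)
      _ = w / 1000 := by ring
  set b := 2 * Real.sqrt ((t : ℝ) / w) with hbdef
  have htw : 0 ≤ (t : ℝ) / w := div_nonneg ht0 (by linarith)
  have hsq := Real.sq_sqrt htw
  have hb2' : b ^ 2 = 4 * ((t : ℝ) / w) := by rw [hbdef, mul_pow, hsq]; norm_num
  have hb : 0 ≤ b := by positivity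
  have hb2 : b ^ 2 * (w / 4) = t := by rw [hb2']; field_simp
  have hb1 : b ≤ 1 := by
    rw [← abs_of_nonneg hb, ← sq_le_one_iff_abs_le_one, hb2',
      show 4 * ((t : ℝ) / w) = 4 * t / w by ring, div_le_one (by linarith)]
    linarith
  set Y := base p ^ Δ with hYdef
  have hY : 0 ≤ Y := by positivity
  refine (fourth_le hB hp0 hp1 hpart hmap hinv hfix (by linarith) hb hb2).trans ?_
  refine mul_le_mul_of_nonneg_right ?_ (sq_nonneg _)
  have hk : (((univ \ part e).card : ℕ) : ℝ) ≤ w := by
    rw [hwdef]; exact_mod_cast card_le_univ _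
  refine (mul_le_mul_of_nonneg_left (gen_le hb hb1 hY hk) (by positivity)).trans ?_
  have hYexp : Y = Real.exp ((Δ : ℝ) * Real.log (base p)) := by
    rw [hYdef, Real.exp_nat_mul, Real.exp_log (by linarith)]
  have hsmall : w * (5 * Y * b ^ 3) ≤ 1 := by
    have hsw : 0 < Real.sqrt w := Real.sqrt_pos.2 (by linarith)
    have ht2 : (t : ℝ) * Real.sqrt t ≤ Real.exp (2 * (t : ℝ)) := by
      have h1 : Real.sqrt t ≤ (t : ℝ) + 1 := by
        rw [Real.sqrt_le_left (by linarith)]; nlinarith
      have h2 := Real.add_one_le_exp (t : ℝ)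
      calc (t : ℝ) * Real.sqrt t ≤ Real.exp t * Real.exp t := by
            apply mul_le_mul (by linarith) (by linarith) (Real.sqrt_nonneg _) (Real.exp_pos _).le
        _ = _ := by rw [← Real.exp_add]; congr 1; ring
    have h40 : (40 : ℝ) ≤ Real.exp 40 := by linarith [Real.add_one_le_exp (40 : ℝ)]
    have heq : w * (5 * Y * b ^ 3) = 40 * Y * ((t : ℝ) * Real.sqrt t) / Real.sqrt w := by
      have : b ^ 3 = b ^ 2 * b := by ring
      rw [this, hb2', hbdef, Real.sqrt_div ht0]
      field_simp
      ring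
    rw [heq, div_le_one hsw]
    calc 40 * Y * ((t : ℝ) * Real.sqrt t)
        ≤ Real.exp 40 * Y * Real.exp (2 * (t : ℝ)) := by gcongr
      _ ≤ Real.exp (Real.log w / 2) := by
          rw [hYexp, ← Real.exp_add, ← Real.exp_add, Real.exp_le_exp]
          have hcs : 2 * c * Real.log w ≤ 1 / 100 * Real.log w := by
            refine mul_le_mul_of_nonneg_right ?_ (by linarith)
            rw [hcdef, mul_one_div, div_le_iff₀ hden]
            linarith
          nlinarith
      _ = Real.sqrt w := by rw [Real.sqrt_eq_rpow, Real.rpow_def_of_pos (by linarith)]; ring_nf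
  have hmain : w * (6 * b ^ 2) = 24 * t := by rw [hb2']; field_simp; ring
  calc base p ^ (r * Δ) * Real.exp (w * (6 * b ^ 2) + w * (5 * Y * b ^ 3))
      ≤ base p ^ (r * Δ) * Real.exp (24 * (t : ℝ) + 1) :=
        mul_le_mul_of_nonneg_left (Real.exp_le_exp.2 (by linarith)) (by positivity)
    _ = Real.exp ((r : ℝ) * ((Δ : ℝ) * Real.log (base p)) + (24 * (t : ℝ) + 1)) := by
        have h : base p ^ (r * Δ) = Real.exp (((r * Δ : ℕ) : ℝ) * Real.log (base p)) := by
          rw [Real.exp_nat_mul, Real.exp_log (by linarith)]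
        rw [h, ← Real.exp_add]
        push_cast
        congr 1
        ring
    _ ≤ w ^ (1 / 20 : ℝ) := by
        rw [Real.rpow_def_of_pos (by linarith), Real.exp_le_exp]
        have h1 : ((r : ℝ) + 25) * (c * Real.log w) = Real.log w / 40 := by
          rw [hcdef]; field_simp
        have h2 : (r : ℝ) * ((Δ : ℝ) * Real.log (base p)) ≤ (r : ℝ) * (c * Real.log w) :=
          mul_le_mul_of_nonneg_left (by linarith) hr0
        linarith

end main

end Vale.Agent.P063
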