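import Vale.Agent.P063.Fourier

/-!
Counting lemmas for the reduction of low degree to low sparse sets.
-/

open Finset
open scoped Classical

namespace Vale.Agent.P063

/-- The number of `m`-subsets of `Fin n` containing `A`. -/
noncomputable def cover (n m : ℕ) (A : Finset (Fin n)) : ℕ :=
  ((powersetCard m (univ : Finset (Fin n))).filter fun W => A ⊆ W).card

/-- The number of `m`-subsets of `Fin n`. -/
noncomputable def total (n m : ℕ) : ℕ := (powersetCard m (univ : Finset (Fin n))).card

lemma cover_perm {n m : ℕ} (σ : Equiv.Perm (Fin n)) (A : Finset (Fin n)) :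
    cover n m (A.map σ.toEmbedding) = cover n m A := by
  refine card_bij' (fun W _ => W.map σ.symm.toEmbedding) (fun W _ => W.map σ.toEmbedding)
    ?_ ?_ ?_ ?_
  · intro W hW
    rw [mem_filter, mem_powersetCard] at hW ⊢
    refine ⟨⟨subset_univ _, by rw [card_map]; exact hW.1.2⟩, ?_⟩
    intro x hx
    refine mem_map.2 ⟨σ x, hW.2 (mem_map.2 ⟨x, hx, rfl⟩), by simp⟩
  · intro W hW
    rw [mem_filter, mem_powersetCard] at hW ⊢
    exact ⟨⟨subset_univ _, by rw [card_map]; exact hW.1.2⟩, map_subset_map.2 hW.2⟩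
  · intro W _; simp [map_map]
  · intro W _; simp [map_map]

lemma sum_cover_insert {n m : ℕ} (A : Finset (Fin n)) :
    ∑ x ∈ univ \ A, cover n m (insert x A) = cover n m A * (m - A.card) := by
  simp only [cover, card_filter, sum_mul]
  rw [sum_comm]
  refine sum_congr rfl fun W hW => ?_
  by_cases hA : A ⊆ W
  · rw [if_pos hA, one_mul, ← (mem_powersetCard.1 hW).2, ← card_sdiff_of_subset hA]
    rw [← card_filter]
    congr 1
    ext x
    simp [insert_subset_iff, hA]
    tauto
  · rw [if_neg hA, zero_mul]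
    refine sum_eq_zero fun x _ => if_neg fun h => hA ((subset_insert x A).trans h)

lemma cover_single {n m : ℕ} (u : Fin n) : n * cover n m {u} = m * total n m := by
  have h := sum_cover_insert (m := m) (∅ : Finset (Fin n))
  have hs : ∀ x : Fin n, cover n m {x} = cover n m {u} := by
    intro x
    have := cover_perm (m := m) (Equiv.swap u x) {u}
    simpa using this
  simp only [sdiff_empty, insert_empty, hs, sum_const, card_univ, Fintype.card_fin, card_empty,
    Nat.sub_zero, smul_eq_mul] at h
  rw [h]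
  simp [cover, total, mul_comm]

lemma cover_pair_le {n m : ℕ} (hmn : m ≤ n) {u x : Fin n} (hx : x ≠ u) :
    n * cover n m {x, u} ≤ m * cover n m {u} := by
  have h := sum_cover_insert (m := m) ({u} : Finset (Fin n))
  have hs : ∀ y ∈ univ \ ({u} : Finset (Fin n)), cover n m {y, u} = cover n m {x, u} := by
    intro y hy
    have hy' : y ≠ u := by simpa using hy
    have := cover_perm (m := m) (Equiv.swap x y) {x, u}
    rw [← this]
    congr 1
    simp [map_insert, Equiv.swap_apply_of_ne_of_ne hx.symm hy'.symm]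
  rw [sum_congr rfl hs, sum_const, card_sdiff_of_subset (subset_univ _), card_univ,
    Fintype.card_fin, card_singleton, smul_eq_mul] at h
  have hle : cover n m {x, u} ≤ cover n m {u} := by
    refine card_le_card fun W hW => ?_
    rw [mem_filter] at hW ⊢
    exact ⟨hW.1, (singleton_subset_iff.2 (mem_insert_of_mem (mem_singleton_self u))).trans hW.2⟩
  rcases Nat.eq_zero_or_pos m with hm | hm
  · subst hm
    have h0 : cover n 0 {u} = 0 := by
      simp [cover, powersetCard_zero, filter_singleton]
    simp [h0] at hle ⊢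
    simp [hle]
  · have hn : 1 ≤ n := le_trans hm hmn
    have h1 : n * cover n m {x, u} = (n - 1) * cover n m {x, u} + cover n m {x, u} := by
      rw [← Nat.succ_mul, Nat.succ_eq_add_one, Nat.sub_add_cancel hn]
    have h2 : m * cover n m {u} = cover n m {u} * (m - 1) + cover n m {u} := by
      rw [← Nat.mul_succ, Nat.succ_eq_add_one, Nat.sub_add_cancel hm, Nat.mul_comm]
    omega

/-- Many `m`-sets contain `u`, avoid the bad vertices and meet `V₀` in at most `k` points. -/
lemma many_good {n m : ℕ} (hmn : m ≤ n) {V₀ H : Finset (Fin n)} {u : Fin n} (hu : u ∈ V₀)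
    (huH : u ∉ H) {k : ℕ} (hk : 1 ≤ k)
    (hsmall : (((V₀.card : ℝ) / k) + H.card) * m / n ≤ 1 / 2) :
    (m : ℝ) * total n m / (2 * n) ≤
      (((powersetCard m (univ : Finset (Fin n))).filter fun W =>
        u ∈ W ∧ (V₀ ∩ W).card ≤ k ∧ Disjoint H W).card : ℝ) := by
  have hn : (0 : ℝ) < n := by exact_mod_cast (lt_of_le_of_lt (Nat.zero_le _) u.isLt)
  have hkR : (0 : ℝ) < k := by exact_mod_cast hk
  obtain ⟨N1, hN1def⟩ : ∃ N1 : ℝ, N1 = ((cover n m {u} : ℕ) : ℝ) := ⟨_, rfl⟩
  have hN1 : (n : ℝ) * N1 = m * total n m := by rw [hN1def]; exact_mod_cast cover_single (m := m) u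
  have hN1nn : 0 ≤ N1 := by rw [hN1def]; exact Nat.cast_nonneg _
  have hN2 : ∀ x, x ≠ u → (cover n m {x, u} : ℝ) ≤ m / n * N1 := by
    intro x hx
    rw [div_mul_eq_mul_div, le_div_iff₀ hn, mul_comm _ (n : ℝ)]
    rw [hN1def]; exact_mod_cast cover_pair_le hmn hx
  have hpoint : ∀ W ∈ powersetCard m (univ : Finset (Fin n)),
      (if ({u} : Finset (Fin n)) ⊆ W then (1 : ℝ) else 0) ≤
        (if u ∈ W ∧ (V₀ ∩ W).card ≤ k ∧ Disjoint H W then 1 else 0) +
        (∑ x ∈ V₀.erase u, if ({x, u} : Finset (Fin n)) ⊆ W then (1 : ℝ) / k else 0) +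
        ∑ x ∈ H, if ({x, u} : Finset (Fin n)) ⊆ W then (1 : ℝ) else 0 := by
    intro W _
    have hA : 0 ≤ ∑ x ∈ V₀.erase u, if ({x, u} : Finset (Fin n)) ⊆ W then (1 : ℝ) / k else 0 :=
      sum_nonneg fun x _ => by split_ifs <;> positivity
    have hB : 0 ≤ ∑ x ∈ H, if ({x, u} : Finset (Fin n)) ⊆ W then (1 : ℝ) else 0 :=
      sum_nonneg fun x _ => by split_ifs <;> norm_num
    by_cases huW : u ∈ W
    · rw [if_pos (singleton_subset_iff.2 huW)]
      by_cases h1 : (V₀ ∩ W).card ≤ k
      · by_cases h2 : Disjoint H W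
        · rw [if_pos ⟨huW, h1, h2⟩]; linarith
        · obtain ⟨x, hxH, hxW⟩ := not_disjoint_iff.1 h2
          have hone : (1 : ℝ) ≤ ∑ x ∈ H, if ({x, u} : Finset (Fin n)) ⊆ W then (1 : ℝ) else 0 := by
            refine le_trans ?_ (single_le_sum (fun y _ => by split_ifs <;> norm_num) hxH)
            rw [if_pos (by simp [insert_subset_iff, hxW, huW])]
          split_ifs <;> linarith
      · have hone : (1 : ℝ) ≤
            ∑ x ∈ V₀.erase u, if ({x, u} : Finset (Fin n)) ⊆ W then (1 : ℝ) / k else 0 := by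
          rw [← sum_filter, sum_const, nsmul_eq_mul, mul_one_div, le_div_iff₀ hkR, one_mul]
          have hsub : (V₀ ∩ W).erase u ⊆
              (V₀.erase u).filter fun x => ({x, u} : Finset (Fin n)) ⊆ W := by
            intro x hx
            simp only [mem_erase, mem_inter] at hx
            simp [insert_subset_iff, hx.1, hx.2.1, hx.2.2, huW]
          have h3 := card_le_card hsub
          rw [card_erase_of_mem (mem_inter.2 ⟨hu, huW⟩)] at h3
          exact_mod_cast le_trans (by omega) h3
        split_ifs <;> linarith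
    · rw [if_neg (fun h => huW (singleton_subset_iff.1 h))]
      split_ifs <;> linarith
  have hsum := sum_le_sum hpoint
  simp only [sum_add_distrib] at hsum
  rw [sum_comm (t := V₀.erase u), sum_comm (t := H)] at hsum
  have hc : ∀ A : Finset (Fin n), ∀ c : ℝ,
      ∑ W ∈ powersetCard m (univ : Finset (Fin n)), (if A ⊆ W then c else 0) =
        c * cover n m A := by
    intro A c
    rw [← sum_filter, sum_const, nsmul_eq_mul, mul_comm]
    rfl
  simp only [hc, ← sum_filter, sum_const, nsmul_eq_mul, mul_one, one_mul, ← hN1def] at hsum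
  have hS1 : ∑ x ∈ V₀.erase u, (1 : ℝ) / k * cover n m {x, u} ≤
      (V₀.card : ℝ) / k * (m / n * N1) := by
    calc ∑ x ∈ V₀.erase u, (1 : ℝ) / k * cover n m {x, u}
        ≤ ∑ x ∈ V₀.erase u, (1 : ℝ) / k * (m / n * N1) :=
          sum_le_sum fun x hx => mul_le_mul_of_nonneg_left (hN2 x (ne_of_mem_erase hx))
            (by positivity)
      _ ≤ (V₀.card : ℝ) / k * (m / n * N1) := by
          rw [sum_const, nsmul_eq_mul, ← mul_assoc, mul_one_div]
          refine mul_le_mul_of_nonneg_right ?_ (by positivity)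
          gcongr
          exact erase_subset _ _
  have hS2 : ∑ x ∈ H, (cover n m {x, u} : ℝ) ≤ (H.card : ℝ) * (m / n * N1) := by
    calc ∑ x ∈ H, (cover n m {x, u} : ℝ) ≤ ∑ _x ∈ H, (m / n * N1) :=
          sum_le_sum fun x hx => hN2 x (fun h => huH (h ▸ hx))
      _ = _ := by rw [sum_const, nsmul_eq_mul]
  have hhalf : (((V₀.card : ℝ) / k) + H.card) * (m / n * N1) ≤ 1 / 2 * N1 := by
    calc _ = ((((V₀.card : ℝ) / k) + H.card) * m / n) * N1 := by ring
      _ ≤ _ := mul_le_mul_of_nonneg_right hsmall hN1nn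
  have hgoal : (m : ℝ) * total n m / (2 * n) = N1 / 2 := by
    rw [← hN1]; field_simp
  rw [hgoal]
  linarith

variable {n r : ℕ}

/-- The vertices spanned by a set of edges. -/
noncomputable def verts (S : Finset (Edge n r)) : Finset (Fin n) := S.biUnion Subtype.val

/-- The degree of a vertex in a set of edges. -/
noncomputable def deg (S : Finset (Edge n r)) (u : Fin n) : ℕ :=
  (S.filter fun e => u ∈ e.1).card

lemma deg_le_pow (S : Finset (Edge n r)) (u : Fin n) :
    deg S u ≤ (verts S).card ^ (r - 1) := by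
  refine le_trans ?_ (Nat.choose_le_pow _ _)
  rw [← card_powersetCard]
  refine card_le_card_of_injOn (fun e => e.1.erase u) (fun e he => ?_) ?_
  · rw [mem_coe, mem_filter] at he
    rw [mem_coe, mem_powersetCard]
    exact ⟨(erase_subset _ _).trans (subset_biUnion_of_mem Subtype.val he.1),
      by rw [card_erase_of_mem he.2, e.2]⟩
  · intro e he e' he' h
    rw [mem_coe, mem_filter] at he he'
    exact Subtype.ext (by rw [← insert_erase he.2, ← insert_erase he'.2]; exact congrArg _ h)

lemma sum_deg (S : Finset (Edge n r)) : ∑ u, deg S u = r * S.card := by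
  simp only [deg, card_filter]
  rw [sum_comm]
  have h : ∀ e ∈ S, (∑ u : Fin n, if u ∈ e.1 then 1 else 0) = r := by
    intro e _
    rw [← card_filter]
    simpa using e.2
  rw [sum_congr rfl h, sum_const, smul_eq_mul, mul_comm]

lemma verts_card_le (S : Finset (Edge n r)) : (verts S).card ≤ r * S.card := by
  refine le_trans card_biUnion_le ?_
  rw [sum_congr rfl fun e _ => e.2, sum_const, smul_eq_mul, mul_comm]

lemma heavy_card_le (S : Finset (Edge n r)) (D : ℕ) :
    ((univ : Finset (Fin n)).filter fun u => D < deg S u).card * (D + 1) ≤ r * S.card := by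
  rw [← sum_deg]
  refine le_trans ?_ (sum_le_sum_of_subset (filter_subset (fun u => D < deg S u) univ))
  rw [← smul_eq_mul]
  exact card_nsmul_le_sum _ _ _ fun u hu => (mem_filter.1 hu).2

end Vale.Agent.P063
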