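import Vale.Agent.P063.Restrict
import Vale.Agent.P063.LowDegreeComb

/-!
Low Fourier degree carries little weight: reduction to low sparse sets.
-/

open Finset Filter
open scoped Classical

namespace Vale.Agent.P063

variable {n r : ℕ}

/-- A permutation of the vertices as a permutation of the edges. -/
def edgePerm (π : Equiv.Perm (Fin n)) : Equiv.Perm (Edge n r) where
  toFun := permEdge π
  invFun := permEdge π.symm
  left_inv e := Subtype.ext (by simp [permEdge, Finset.map_map])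
  right_inv e := Subtype.ext (by simp [permEdge, Finset.map_map])

/-- The edges meeting `W`. -/
noncomputable def meeting (r : ℕ) (W : Finset (Fin n)) : Finset (Edge n r) :=
  univ.filter fun e => ∃ x ∈ e.1, x ∈ W

/-- Few vertices in `W`, none of them heavy. -/
def GoodFor (W : Finset (Fin n)) (t D : ℕ) (S : Finset (Edge n r)) : Prop :=
  (verts S ∩ W).Nonempty ∧ (verts S ∩ W).card ≤ t ∧ ∀ u ∈ W, deg S u ≤ D

lemma base_ge {p : ℝ} (hp0 : 0 < p) (hp1 : p < 1) : 76 ≤ base p := by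
  have h : 0 < p * (1 - p) := mul_pos hp0 (by linarith)
  rw [base, le_div_iff₀ h]
  nlinarith [sq_nonneg (p - 1 / 2)]

lemma log_base_ge {p : ℝ} (hp0 : 0 < p) (hp1 : p < 1) : 1 ≤ Real.log (base p) := by
  rw [Real.le_log_iff_exp_le (lt_of_lt_of_le (by norm_num) (base_ge hp0 hp1))]
  linarith [Real.exp_one_lt_d9, base_ge hp0 hp1]

/-- Sets that are good for `W` carry little weight. -/
lemma good_weight {c : ℝ} {w₀ : ℕ}
    (hC : ∀ (ι V : Type) [Fintype ι] [Fintype V] [DecidableEq V] (part : ι → Finset V)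
      (act : Equiv.Perm V → Equiv.Perm ι) (P : (ι → Bool) → Bool) (p : ℝ) (t Δ : ℕ),
      w₀ ≤ Fintype.card V →
      (∀ i, (part i).Nonempty ∧ (part i).card ≤ r) →
      (∀ σ i, part (act σ i) = (part i).map σ.toEmbedding) →
      (∀ σ x, P (fun i => x (act σ i)) = P x) →
      (∀ σ i, (∀ u ∈ part i, σ u = u) → act σ i = i) →
      0 < p → p < 1 →
      ((t : ℝ) + 1) + ((Δ : ℝ) + 1) * Real.log (base p) ≤ c * Real.log (Fintype.card V) →
      weight p (ind P) (LowSet part t Δ) ≤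
        infl p (ind P) / (Fintype.card V : ℝ) ^ (1 / 5 : ℝ))
    {P : (Edge n r → Bool) → Bool} (hP : Invariant P) {p : ℝ} (hp0 : 0 < p) (hp1 : p < 1)
    (W : Finset (Fin n)) (t D : ℕ) (hw : w₀ ≤ W.card)
    (hlog : ((t : ℝ) + 1) + ((D : ℝ) + 1) * Real.log (base p) ≤ c * Real.log W.card) :
    weight p (ind P) (GoodFor W t D) ≤ infl p (ind P) / (W.card : ℝ) ^ (1 / 5 : ℝ) := by
  obtain ⟨A, hAdef⟩ : ∃ A : Finset (Edge n r), A = meeting r W := ⟨_, rfl⟩
  have hmemA : ∀ e, e ∈ A ↔ ∃ x ∈ e.1, x ∈ W := fun e => by simp [hAdef, meeting]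
  let part : {e // e ∈ A} → Finset {x // x ∈ W} := fun e => e.1.1.subtype (fun x => x ∈ W)
  have hstable : ∀ (σ : Equiv.Perm {x // x ∈ W}) (e : Edge n r),
      edgePerm (Equiv.Perm.ofSubtype σ) e ∈ A ↔ e ∈ A := by
    intro σ e
    rw [hmemA, hmemA]
    simp only [edgePerm, permEdge, Equiv.coe_fn_mk]
    constructor
    · rintro ⟨x, hx, hxW⟩
      obtain ⟨y, hy, rfl⟩ := Finset.mem_map.1 hx
      exact ⟨y, hy, (Equiv.Perm.ofSubtype_apply_mem_iff_mem σ y).1 hxW⟩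
    · rintro ⟨x, hx, hxW⟩
      exact ⟨Equiv.Perm.ofSubtype σ x, Finset.mem_map.2 ⟨x, hx, rfl⟩,
        (Equiv.Perm.ofSubtype_apply_mem_iff_mem σ x).2 hxW⟩
  let act : Equiv.Perm {x // x ∈ W} → Equiv.Perm {e // e ∈ A} := fun σ =>
    (edgePerm (Equiv.Perm.ofSubtype σ)).subtypePerm (hstable σ)
  have hpart : ∀ e : {e // e ∈ A}, (part e).Nonempty ∧ (part e).card ≤ r := by
    intro e
    obtain ⟨x, hx, hxW⟩ := (hmemA e.1).1 e.2
    refine ⟨⟨⟨x, hxW⟩, by simp [part, hx]⟩, ?_⟩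
    simp only [part, card_subtype]
    exact (card_filter_le _ _).trans (le_of_eq e.1.2)
  have heq : ∀ σ (e : {e // e ∈ A}), part (act σ e) = (part e).map σ.toEmbedding := by
    intro σ e
    ext x
    simp only [part, act, mem_subtype, mem_map_equiv, Equiv.Perm.subtypePerm_apply, edgePerm,
      permEdge, Equiv.coe_fn_mk]
    rw [show (Equiv.Perm.ofSubtype σ).symm x.1 = (σ.symm x).1 from ?_]
    rw [← Equiv.Perm.inv_def, ← Equiv.Perm.inv_def, ← map_inv, Equiv.Perm.ofSubtype_apply_coe]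
  have hinv : ∀ (z : Edge n r → Bool) σ (y : {e // e ∈ A} → Bool),
      P (glue A (fun e => y (act σ e)) z) = P (glue A y z) := by
    intro z σ y
    conv_rhs => rw [← hP (Equiv.Perm.ofSubtype σ) (glue A y z)]
    congr 1
    funext e
    by_cases he : e ∈ A
    · have he' := (hstable σ e).2 he
      simp only [edgePerm, Equiv.coe_fn_mk] at he'
      simp only [glue, dif_pos he, dif_pos he']
      rfl
    · have hfix : permEdge (Equiv.Perm.ofSubtype σ) e = e := by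
        refine Subtype.ext ?_
        have hx : ∀ x ∈ e.1, Equiv.Perm.ofSubtype σ x = x := fun x hx =>
          Equiv.Perm.ofSubtype_apply_of_not_mem σ fun hxW => he ((hmemA e).2 ⟨x, hx, hxW⟩)
        ext x
        simp only [permEdge, Finset.mem_map, Equiv.coe_toEmbedding]
        constructor
        · rintro ⟨y, hy, rfl⟩; rwa [hx y hy]
        · exact fun h => ⟨x, h, hx x h⟩
      rw [hfix]
      simp only [glue, dif_neg he]
  have hfixed : ∀ σ (e : {e // e ∈ A}), (∀ u ∈ part e, σ u = u) → act σ e = e := by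
    intro σ e h
    apply Subtype.ext
    refine Subtype.ext ?_
    have hx : ∀ x ∈ e.1.1, Equiv.Perm.ofSubtype σ x = x := by
      intro x hx
      by_cases hxW : x ∈ W
      · have h' := h ⟨x, hxW⟩ (by simp [part, hx])
        rw [Equiv.Perm.ofSubtype_apply_of_mem σ hxW, h']
      · exact Equiv.Perm.ofSubtype_apply_of_not_mem σ hxW
    ext x
    simp only [act, Equiv.Perm.subtypePerm_apply, edgePerm, Equiv.coe_fn_mk, permEdge,
      Finset.mem_map, Equiv.coe_toEmbedding]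
    constructor
    · rintro ⟨y, hy, rfl⟩; rwa [hx y hy]
    · exact fun h => ⟨x, h, hx x h⟩
  have hsub : ∀ S, GoodFor W t D S → LowSet part t D (inside A S) := by
    intro S hS
    obtain ⟨⟨u, hu⟩, hcard, hdeg⟩ := hS
    have hbi : (inside A S).biUnion part = (verts S ∩ W).subtype (fun x => x ∈ W) := by
      ext x
      simp only [part, mem_biUnion, mem_subtype, mem_inside, mem_inter, verts]
      constructor
      · rintro ⟨e, heS, hxe⟩
        exact ⟨⟨e.1, heS, hxe⟩, x.2⟩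
      · rintro ⟨⟨e, heS, hxe⟩, hxW⟩
        exact ⟨⟨e, (hmemA e).2 ⟨x.1, hxe, hxW⟩⟩, heS, hxe⟩
    refine ⟨?_, ?_, ?_⟩
    · obtain ⟨hu1, hu2⟩ := mem_inter.1 hu
      obtain ⟨e, heS, hue⟩ := mem_biUnion.1 hu1
      exact ⟨⟨e, (hmemA e).2 ⟨u, hue, hu2⟩⟩, mem_inside.2 heS⟩
    · rw [hbi, card_subtype]
      exact (card_filter_le _ _).trans hcard
    · intro x _
      refine le_trans ?_ (hdeg x.1 x.2)
      refine card_le_card_of_injOn Subtype.val (fun e he => ?_) Subtype.val_injective.injOn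
      rw [mem_coe, mem_filter] at he ⊢
      exact ⟨mem_inside.1 he.1, by simpa [part] using he.2⟩
  calc weight p (ind P) (GoodFor W t D)
      ≤ weight p (ind P) (fun S => LowSet part t D (inside A S)) := weight_mono _ hsub
    _ = ev p (fun z => weight p (fun y => ind P (glue A y z)) (LowSet part t D)) :=
        (ev_weight_restrict hp0 hp1 _ A _).symm
    _ ≤ ev p (fun z => ((W.card : ℝ) ^ (1 / 5 : ℝ))⁻¹ *
          infl p (fun y => ind P (glue A y z))) := by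
        refine ev_mono hp0.le hp1.le fun z => ?_
        have h := hC {e // e ∈ A} {x // x ∈ W} part act (fun y => P (glue A y z)) p t D
          (by rw [Fintype.card_coe]; exact hw) hpart heq (hinv z) hfixed hp0 hp1
          (by rw [Fintype.card_coe]; exact hlog)
        rw [Fintype.card_coe, div_eq_inv_mul _ ((W.card : ℝ) ^ (1 / 5 : ℝ))] at h
        exact h
    _ ≤ infl p (ind P) / (W.card : ℝ) ^ (1 / 5 : ℝ) := by
        rw [ev_mul_left, div_eq_inv_mul _ ((W.card : ℝ) ^ (1 / 5 : ℝ))]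
        exact mul_le_mul_of_nonneg_left (ev_infl_restrict hp0 hp1 (ind P) A)
          (inv_nonneg.2 (Real.rpow_nonneg (Nat.cast_nonneg _) _))

/-- Averaging over the vertex sets of a given size. -/
lemma average_weight {p : ℝ} (f : (Edge n r → Bool) → ℝ) (C : Finset (Edge n r) → Prop)
    (G : Finset (Fin n) → Finset (Edge n r) → Prop) {m : ℕ} {θ B : ℝ}
    (hlow : ∀ S, C S →
      θ ≤ (((powersetCard m (univ : Finset (Fin n))).filter fun W => G W S).card : ℝ))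
    (hup : ∀ W ∈ powersetCard m (univ : Finset (Fin n)), weight p f (G W) ≤ B) :
    θ * weight p f C ≤ total n m * B := by
  calc θ * weight p f C = ∑ S, if C S then θ * coef p f S ^ 2 else 0 := by
        simp only [weight, mul_sum, mul_ite, mul_zero]
    _ ≤ ∑ S, ∑ W ∈ powersetCard m (univ : Finset (Fin n)),
          if G W S then coef p f S ^ 2 else 0 := by
        refine sum_le_sum fun S _ => ?_
        have hnn : 0 ≤ ∑ W ∈ powersetCard m (univ : Finset (Fin n)),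
            if G W S then coef p f S ^ 2 else 0 :=
          sum_nonneg fun W _ => by split_ifs <;> positivity
        by_cases hS : C S
        · rw [if_pos hS, ← sum_filter, sum_const, nsmul_eq_mul]
          exact mul_le_mul_of_nonneg_right (hlow S hS) (sq_nonneg _)
        · rw [if_neg hS]; exact hnn
    _ = ∑ W ∈ powersetCard m (univ : Finset (Fin n)), weight p f (G W) := sum_comm
    _ ≤ total n m * B := by
        refine le_trans (sum_le_sum hup) ?_
        rw [sum_const, nsmul_eq_mul]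
        rfl

/-- Subadditivity of the weight. -/
lemma weight_split {p : ℝ} (f : (Edge n r → Bool) → ℝ) {C C₁ C₂ : Finset (Edge n r) → Prop}
    (h : ∀ S, C S → C₁ S ∨ C₂ S) : weight p f C ≤ weight p f C₁ + weight p f C₂ := by
  simp only [weight, ← sum_add_distrib]
  refine sum_le_sum fun S _ => ?_
  have := h S
  have := sq_nonneg (coef p f S)
  by_cases hC : C S <;> by_cases h₁ : C₁ S <;> by_cases h₂ : C₂ S <;> simp_all

/-- The random vertex set is sparse with respect to a low degree set. -/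
lemma sparse_ratio {v h k m s : ℕ} {X : ℝ} (hn0 : (0 : ℝ) < n)
    (hX : X = (n : ℝ) ^ (19 / 20 : ℝ)) (hX0 : 0 ≤ X) (hk : 1 ≤ k) (hm : (m : ℝ) ≤ X)
    (h3 : 4 * (r : ℝ) * Real.log n ^ 2 ≤ (n : ℝ) ^ (1 / 20 : ℝ))
    (hv : v ≤ r * s) (hs : (s : ℝ) ≤ Real.log n ^ 2) (hh : h ≤ v) :
    ((v : ℝ) / k + h) * m / n ≤ 1 / 2 := by
  have hv' : (v : ℝ) ≤ r * Real.log n ^ 2 := by
    calc (v : ℝ) ≤ (r : ℝ) * s := by exact_mod_cast hv
      _ ≤ _ := mul_le_mul_of_nonneg_left hs (Nat.cast_nonneg r)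
  have hh' : (h : ℝ) ≤ v := by exact_mod_cast hh
  have hdiv : (v : ℝ) / k ≤ v := div_le_self (Nat.cast_nonneg _) (by exact_mod_cast hk)
  rw [div_le_iff₀ hn0]
  calc ((v : ℝ) / k + h) * m ≤ (2 * (r * Real.log n ^ 2)) * X := by
        refine mul_le_mul (by linarith) hm (Nat.cast_nonneg _) (by positivity)
    _ ≤ (1 / 2 * (n : ℝ) ^ (1 / 20 : ℝ)) * X := mul_le_mul_of_nonneg_right (by linarith) hX0
    _ = 1 / 2 * n := by
        rw [hX, mul_assoc, ← Real.rpow_add hn0]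
        norm_num

theorem lowDegree (hLM : LowMass) : LowDegree := by
  intro r hr
  obtain ⟨c, w₀, hc, hC⟩ := hLM r
  obtain ⟨η, hηdef⟩ : ∃ η : ℝ, η = min 1 (c / 16) := ⟨_, rfl⟩
  have hη0 : 0 < η := by rw [hηdef]; exact lt_min one_pos (by positivity)
  have hη1 : η ≤ 1 := by rw [hηdef]; exact min_le_left _ _
  have hηc : η ≤ c / 16 := by rw [hηdef]; exact min_le_right _ _
  obtain ⟨a, hadef⟩ : ∃ a : ℝ, a = min (η ^ 2 / r) (η ^ (r - 1)) := ⟨_, rfl⟩
  have hr0 : (0 : ℝ) < r := by exact_mod_cast (show 0 < r by omega)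
  have hr2 : (2 : ℝ) ≤ r := by exact_mod_cast hr
  have ha0 : 0 < a := by rw [hadef]; exact lt_min (by positivity) (by positivity)
  have ha_pow : a ≤ η ^ (r - 1) := by rw [hadef]; exact min_le_right _ _
  have ha_sq : (r : ℝ) * a ≤ η ^ 2 := by
    have : a ≤ η ^ 2 / r := by rw [hadef]; exact min_le_left _ _
    rw [le_div_iff₀ hr0] at this
    linarith
  have haη : a ≤ η := ha_pow.trans (pow_le_of_le_one hη0.le hη1 (by omega))
  have ha1 : a ≤ 1 := haη.trans hη1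
  -- the asymptotic requirements
  have ev1 : ∀ᶠ x : ℝ in atTop, 4 / c ≤ Real.log x :=
    Real.tendsto_log_atTop.eventually_ge_atTop _
  have ev2 : ∀ᶠ x : ℝ in atTop, 2 * ((w₀ : ℝ) + 1) ≤ x ^ (19 / 20 : ℝ) :=
    (tendsto_rpow_atTop (by norm_num)).eventually_ge_atTop _
  have ev3 : ∀ᶠ x : ℝ in atTop, 4 * (r : ℝ) * Real.log x ^ 2 ≤ x ^ (1 / 20 : ℝ) := by
    have h := (isLittleO_log_rpow_rpow_atTop 2 (show (0 : ℝ) < 1 / 20 by norm_num)).bound
      (show (0 : ℝ) < 1 / (4 * r) by positivity)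
    filter_upwards [h, eventually_ge_atTop (1 : ℝ)] with x hx hx1
    rw [Real.norm_of_nonneg (Real.rpow_nonneg (Real.log_nonneg hx1) _),
      Real.norm_of_nonneg (Real.rpow_nonneg (by linarith) _), Real.rpow_two] at hx
    rw [div_mul_eq_mul_div, one_mul, le_div_iff₀ (by positivity)] at hx
    linarith
  have ev4 : ∀ᶠ x : ℝ in atTop, (9 : ℝ) ≤ x ^ (3 / 200 : ℝ) :=
    (tendsto_rpow_atTop (by norm_num)).eventually_ge_atTop _
  have ev5 : ∀ᶠ x : ℝ in atTop, (2 : ℝ) ≤ x ^ (9 / 20 : ℝ) :=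
    (tendsto_rpow_atTop (by norm_num)).eventually_ge_atTop _
  obtain ⟨x₀, hx₀⟩ :=
    eventually_atTop.1 (((ev1.and ev2).and (ev3.and ev4)).and (ev5.and (eventually_ge_atTop 1)))
  obtain ⟨n₁, hn₁⟩ := exists_nat_ge x₀
  refine ⟨a, max n₁ w₀, ha0, ?_⟩
  intro n hn P hP p hp0 hp1 hL
  obtain ⟨⟨⟨h1, h2⟩, h3, h4⟩, h5, h6⟩ :=
    hx₀ (n : ℝ) (hn₁.trans (by exact_mod_cast le_trans (le_max_left _ _) hn))
  have hn0 : (0 : ℝ) < n := lt_of_lt_of_le one_pos h6
  have hcn : (4 : ℝ) ≤ c * Real.log n := by rwa [div_le_iff₀ hc, mul_comm] at h1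
  have hlogn : 0 < Real.log n := lt_of_lt_of_le (by positivity) h1
  obtain ⟨ℓ, hℓ⟩ : ∃ ℓ : ℝ, ℓ = Real.log (base p) := ⟨_, rfl⟩
  rw [← hℓ] at hL ⊢
  have hℓ1 : 1 ≤ ℓ := hℓ ▸ log_base_ge hp0 hp1
  obtain ⟨Λ, hΛdef⟩ : ∃ Λ : ℝ, Λ = Real.log n / ℓ := ⟨_, rfl⟩
  have hΛa : 1 / a ≤ Λ := by
    rw [hΛdef, div_le_div_iff₀ ha0 (by linarith)]; linarith
  have hΛ1 : 1 ≤ Λ := le_trans (by rw [le_div_iff₀ ha0]; linarith) hΛa
  have hΛ0 : 0 < Λ := by linarith
  have hΛlog : Λ ≤ Real.log n := by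
    rw [hΛdef]; exact div_le_self hlogn.le hℓ1
  obtain ⟨γ, hγdef⟩ : ∃ γ : ℝ, γ = 1 / ((r : ℝ) - 1) := ⟨_, rfl⟩
  have hγ0 : 0 < γ := by rw [hγdef]; exact one_div_pos.2 (by linarith)
  have hγ1 : γ ≤ 1 := by rw [hγdef, div_le_one (by linarith)]; linarith
  have hexp : (r : ℝ) / ((r : ℝ) - 1) = 1 + γ := by
    have h : (r : ℝ) - 1 ≠ 0 := by linarith
    rw [hγdef, div_eq_iff h, add_mul, div_mul_cancel₀ _ h]; ring
  have hγpow : (Λ ^ γ) ^ (r - 1) = Λ := by
    rw [hγdef, ← Real.rpow_natCast, ← Real.rpow_mul hΛ0.le, Nat.cast_sub (by omega), Nat.cast_one,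
      one_div, inv_mul_cancel₀ (by linarith), Real.rpow_one]
  rw [hexp, Real.rpow_add (div_pos hlogn (by linarith)), Real.rpow_one, ← hΛdef]
  obtain ⟨Φ, hΦdef⟩ : ∃ Φ : ℝ, Φ = Λ ^ γ := ⟨_, rfl⟩
  rw [← hΦdef] at hγpow ⊢
  have hΦ0 : 0 < Φ := hΦdef ▸ Real.rpow_pos_of_pos hΛ0 _
  have hΦΛ : Φ ≤ Λ := by
    rw [hΦdef]; exact (Real.rpow_le_rpow_of_exponent_le hΛ1 hγ1).trans (Real.rpow_one Λ).le
  have hηΦ : 1 ≤ η * Φ := by
    refine (one_le_pow_iff_of_nonneg (by positivity) (show r - 1 ≠ 0 by omega)).1 ?_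
    rw [mul_pow, hγpow]
    calc (1 : ℝ) = a * (1 / a) := by field_simp
      _ ≤ η ^ (r - 1) * Λ := by gcongr
  obtain ⟨v0, hv0⟩ : ∃ v0 : ℕ, v0 = ⌊η * Φ⌋₊ := ⟨_, rfl⟩
  obtain ⟨D, hD⟩ : ∃ D : ℕ, D = ⌊η * Λ⌋₊ := ⟨_, rfl⟩
  have hv1 : 1 ≤ v0 := by rw [hv0]; exact Nat.one_le_floor_iff _ |>.2 hηΦ
  have hv0le : (v0 : ℝ) ≤ η * Φ := hv0 ▸ Nat.floor_le (by positivity)
  have hv0lt : η * Φ < (v0 : ℝ) + 1 := hv0 ▸ Nat.lt_floor_add_one _
  have hDle : (D : ℝ) ≤ η * Λ := hD ▸ Nat.floor_le (by positivity)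
  have hDlt : η * Λ < (D : ℝ) + 1 := hD ▸ Nat.lt_floor_add_one _
  have hpowD : v0 ^ (r - 1) ≤ D := by
    rw [hD]; apply Nat.le_floor
    push_cast
    calc (v0 : ℝ) ^ (r - 1) ≤ (η * Φ) ^ (r - 1) := by gcongr
      _ = η ^ (r - 1) * Λ := by rw [mul_pow, hγpow]
      _ ≤ η * Λ := by
          gcongr
          exact pow_le_of_le_one hη0.le hη1 (by omega)
  have hhyp : ∀ w : ℕ, (1 / 2 : ℝ) * Real.log n ≤ Real.log w →
      ((v0 : ℝ) + 1) + ((D : ℝ) + 1) * ℓ ≤ c * Real.log w := by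
    intro w hw
    have e1 : (v0 : ℝ) ≤ η * Real.log n :=
      hv0le.trans (mul_le_mul_of_nonneg_left (hΦΛ.trans hΛlog) hη0.le)
    have e2 : (D : ℝ) * ℓ ≤ η * Real.log n := by
      calc (D : ℝ) * ℓ ≤ η * Λ * ℓ := by gcongr
        _ = η * Real.log n := by rw [hΛdef]; field_simp
    have e3 : η * Real.log n ≤ c / 16 * Real.log n := by gcongr
    have e4 : a * Real.log n ≤ c / 16 * Real.log n := by
      gcongr; exact haη.trans hηc
    have e5 := mul_le_mul_of_nonneg_left hw hc.le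
    linarith
  obtain ⟨m, hm⟩ : ∃ m : ℕ, m = ⌊(n : ℝ) ^ (19 / 20 : ℝ)⌋₊ := ⟨_, rfl⟩
  obtain ⟨X, hX⟩ : ∃ X : ℝ, X = (n : ℝ) ^ (19 / 20 : ℝ) := ⟨_, rfl⟩
  rw [← hX] at hm h2
  have hX0 : 0 ≤ X := by rw [hX]; positivity
  have hmle : (m : ℝ) ≤ X := hm ▸ Nat.floor_le hX0
  have hmlt : X < (m : ℝ) + 1 := hm ▸ Nat.lt_floor_add_one _
  have hmw : w₀ ≤ m := by
    have : (w₀ : ℝ) ≤ m := by linarith [(w₀.cast_nonneg : (0 : ℝ) ≤ w₀)]
    exact_mod_cast this
  have hmhalf : X / 2 ≤ m := by linarith [(w₀.cast_nonneg : (0 : ℝ) ≤ w₀)]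
  have hmpos : (0 : ℝ) < m := by linarith [(w₀.cast_nonneg : (0 : ℝ) ≤ w₀)]
  have hmn : m ≤ n := by
    have : (m : ℝ) ≤ n := hmle.trans (hX ▸ (Real.rpow_le_rpow_of_exponent_le h6
      (by norm_num : (19 / 20 : ℝ) ≤ 1)).trans (Real.rpow_one _).le)
    exact_mod_cast this
  have hmlog : (1 / 2 : ℝ) * Real.log n ≤ Real.log m := by
    rw [← Real.log_rpow hn0]
    refine Real.log_le_log (Real.rpow_pos_of_pos hn0 _) (le_trans ?_ hmhalf)
    rw [le_div_iff₀ two_pos, hX, show (19 / 20 : ℝ) = 1 / 2 + 9 / 20 by norm_num,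
      Real.rpow_add hn0]
    gcongr
  obtain ⟨I, hI⟩ : ∃ I : ℝ, I = infl p (ind P) := ⟨_, rfl⟩
  rw [← hI]
  have hI0 : 0 ≤ I := hI ▸ infl_nonneg _
  -- few vertices
  have hfew : weight p (ind P) (fun S : Finset (Edge n r) =>
      S.Nonempty ∧ (verts S).card ≤ v0) ≤ I / (n : ℝ) ^ (1 / 5 : ℝ) := by
    have hg := good_weight hC hP hp0 hp1 (univ : Finset (Fin n)) v0 D
      (by simpa using le_trans (le_max_right _ _) hn)
      (by rw [← hℓ]; simpa using hhyp n (by linarith))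
    rw [card_univ, Fintype.card_fin, ← hI] at hg
    refine le_trans (weight_mono _ ?_) hg
    rintro S ⟨⟨e, he⟩, hcard⟩
    refine ⟨?_, by simpa using hcard, fun u _ => ?_⟩
    · obtain ⟨x, hx⟩ : e.1.Nonempty := card_pos.1 (by rw [e.2]; omega)
      exact ⟨x, mem_inter.2 ⟨mem_biUnion.2 ⟨e, he, hx⟩, mem_univ _⟩⟩
    · exact (deg_le_pow S u).trans ((Nat.pow_le_pow_left hcard _).trans hpowD)
  -- many vertices
  obtain ⟨θ, hθ⟩ : ∃ θ : ℝ, θ = (m : ℝ) * total n m / (2 * n) := ⟨_, rfl⟩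
  have hmany : θ * weight p (ind P) (fun S : Finset (Edge n r) =>
      (S.card : ℝ) ≤ a * (Λ * Φ) ∧ v0 < (verts S).card) ≤
      total n m * (I / (m : ℝ) ^ (1 / 5 : ℝ)) := by
    refine average_weight (m := m) (ind P) _ (fun W => GoodFor W v0 D) ?_ ?_
    · rintro S ⟨hS, hv⟩
      have hv' : (v0 : ℝ) + 1 ≤ (verts S).card := by exact_mod_cast hv
      obtain ⟨u, hu, hud⟩ : ∃ u ∈ verts S, deg S u ≤ D := by
        by_contra hcon
        push Not at hcon
        have hsum : (verts S).card * (D + 1) ≤ r * S.card := by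
          rw [← sum_deg]
          refine le_trans ?_ (sum_le_sum_of_subset (subset_univ (verts S)))
          rw [← smul_eq_mul]
          exact card_nsmul_le_sum _ _ _ fun u hu => hcon u hu
        have hsum' : ((verts S).card : ℝ) * ((D : ℝ) + 1) ≤ r * S.card := by exact_mod_cast hsum
        have hgt : η * Φ * (η * Λ) < ((verts S).card : ℝ) * ((D : ℝ) + 1) :=
          mul_lt_mul'' (lt_of_lt_of_le hv0lt hv') hDlt (by positivity) (by positivity)
        have hle : (r : ℝ) * S.card ≤ η ^ 2 * (Λ * Φ) := by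
          calc (r : ℝ) * S.card ≤ r * (a * (Λ * Φ)) := mul_le_mul_of_nonneg_left hS hr0.le
            _ = (r * a) * (Λ * Φ) := by ring
            _ ≤ η ^ 2 * (Λ * Φ) := by gcongr
        linarith [show η * Φ * (η * Λ) = η ^ 2 * (Λ * Φ) by ring]
      have hgood := many_good (m := m) (k := v0) hmn hu
        (show u ∉ (verts S).filter (fun x => D < deg S x) by simp; intro _; exact hud) hv1 ?_
      · rw [hθ]
        refine hgood.trans (Nat.cast_le.2 (card_le_card fun W hW => ?_))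
        simp only [mem_filter] at hW ⊢
        obtain ⟨hWm, huW, hk, hdisj⟩ := hW
        refine ⟨hWm, ⟨u, mem_inter.2 ⟨hu, huW⟩⟩, hk, fun x hx => ?_⟩
        by_contra hxd
        refine disjoint_left.1 hdisj (mem_filter.2 ⟨?_, not_le.1 hxd⟩) hx
        obtain ⟨e, he⟩ : (S.filter fun e => x ∈ e.1).Nonempty :=
          card_pos.1 (lt_of_le_of_lt (Nat.zero_le _) (not_le.1 hxd))
        exact mem_biUnion.2 ⟨e, (mem_filter.1 he).1, (mem_filter.1 he).2⟩
      · exact sparse_ratio hn0 hX hX0 hv1 hmle h3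
          ((verts_card_le S)) (hS.trans (by
            calc a * (Λ * Φ) ≤ 1 * (Real.log n * Real.log n) := by
                  gcongr
                  exact hΦΛ.trans hΛlog
              _ = Real.log n ^ 2 := by ring)) (card_filter_le _ _)
    · intro W hW
      have hWc : W.card = m := (mem_powersetCard.1 hW).2
      have hg := good_weight hC hP hp0 hp1 W v0 D (hWc ▸ hmw)
        (by rw [← hℓ, hWc]; exact hhyp m hmlog)
      rw [hWc, ← hI] at hg
      exact hg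
  have hN : (0 : ℝ) < total n m := by
    have : 0 < total n m := by
      simp only [total, card_powersetCard, card_univ, Fintype.card_fin]
      exact Nat.choose_pos hmn
    exact_mod_cast this
  have hmany' : weight p (ind P) (fun S : Finset (Edge n r) =>
      (S.card : ℝ) ≤ a * (Λ * Φ) ∧ v0 < (verts S).card) ≤
      2 * n / ((m : ℝ) * (m : ℝ) ^ (1 / 5 : ℝ)) * I := by
    have hθpos : 0 < θ := by rw [hθ]; positivity
    rw [← le_div_iff₀' hθpos] at hmany
    refine hmany.trans (le_of_eq ?_)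
    rw [hθ]; field_simp
  have hm65 : 2 * (n : ℝ) / ((m : ℝ) * (m : ℝ) ^ (1 / 5 : ℝ)) ≤
      8 / (n : ℝ) ^ (7 / 50 : ℝ) := by
    rw [div_le_div_iff₀ (by positivity) (by positivity)]
    have hX2 : X / 2 ≥ 0 := by positivity
    have h65 : (X / 2) * ((X / 2) ^ (1 / 5 : ℝ)) ≤ (m : ℝ) * (m : ℝ) ^ (1 / 5 : ℝ) := by
      gcongr
    have hX5 : (X / 2) ^ (1 / 5 : ℝ) ≥ (n : ℝ) ^ (19 / 100 : ℝ) / 2 := by
      rw [Real.div_rpow hX0 two_pos.le, hX, ← Real.rpow_mul hn0.le]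
      norm_num
      gcongr
      calc (2 : ℝ) ^ (1 / 5 : ℝ) ≤ 2 ^ (1 : ℝ) :=
            Real.rpow_le_rpow_of_exponent_le one_le_two (by norm_num)
        _ = 2 := Real.rpow_one 2
    have key : (n : ℝ) * (n : ℝ) ^ (7 / 50 : ℝ) = X * (n : ℝ) ^ (19 / 100 : ℝ) := by
      rw [hX, ← Real.rpow_add hn0]
      nth_rewrite 1 [← Real.rpow_one (n : ℝ)]
      rw [← Real.rpow_add hn0]
      norm_num
    have := mul_le_mul_of_nonneg_left hX5 hX2
    linarith
  calc weight p (ind P) (fun S : Finset (Edge n r) => S.Nonempty ∧ (S.card : ℝ) ≤ a * (Λ * Φ))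
      ≤ weight p (ind P) (fun S : Finset (Edge n r) => S.Nonempty ∧ (verts S).card ≤ v0) +
        weight p (ind P) (fun S : Finset (Edge n r) =>
          (S.card : ℝ) ≤ a * (Λ * Φ) ∧ v0 < (verts S).card) :=
        weight_split _ fun S hS => (le_or_gt (verts S).card v0).imp
          (fun h => ⟨hS.1, h⟩) (fun h => ⟨hS.2, h⟩)
    _ ≤ I / (n : ℝ) ^ (1 / 5 : ℝ) + 8 / (n : ℝ) ^ (7 / 50 : ℝ) * I := by
        refine add_le_add hfew (hmany'.trans ?_)
        gcongr
    _ ≤ 9 / (n : ℝ) ^ (7 / 50 : ℝ) * I := by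
        have : I / (n : ℝ) ^ (1 / 5 : ℝ) ≤ 1 / (n : ℝ) ^ (7 / 50 : ℝ) * I := by
          rw [div_mul_eq_mul_div, one_mul]
          exact div_le_div_of_nonneg_left hI0 (Real.rpow_pos_of_pos hn0 _)
            (Real.rpow_le_rpow_of_exponent_le h6 (by norm_num))
        rw [show (9 : ℝ) / (n : ℝ) ^ (7 / 50 : ℝ) = 1 / (n : ℝ) ^ (7 / 50 : ℝ) +
          8 / (n : ℝ) ^ (7 / 50 : ℝ) by ring, add_mul]
        linarith
    _ ≤ I / (n : ℝ) ^ (1 / 8 : ℝ) := by
        rw [div_mul_eq_mul_div, show (7 / 50 : ℝ) = 1 / 8 + 3 / 200 by norm_num,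
          Real.rpow_add hn0, div_le_div_iff₀ (by positivity) (by positivity)]
        have := mul_le_mul_of_nonneg_left h4
          (show 0 ≤ I * (n : ℝ) ^ (1 / 8 : ℝ) by positivity)
        linarith

end Vale.Agent.P063
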