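import Vale.Agent.P063.LowMassDefs

/-!
Low sparse sets carry little weight, given the fourth-moment bound.
-/

open Finset Filter
open scoped Classical

namespace Vale.Agent.P063

set_option linter.unusedSectionVars false
set_option linter.unusedVariables false

variable {ι V : Type} [Fintype ι] [Fintype V] [DecidableEq V] {p : ℝ}

/-- The influence of a coordinate. -/
noncomputable def inflAt (p : ℝ) (f : (ι → Bool) → ℝ) (i : ι) : ℝ :=
  ∑ S : Finset ι, if i ∈ S then coef p f S ^ 2 else 0

/-- The pivotality indicator of a coordinate. -/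
noncomputable def pivot (P : (ι → Bool) → Bool) (i : ι) (x : ι → Bool) : ℝ :=
  (ind P (Function.update x i true) - ind P (Function.update x i false)) ^ 2

/-- Cauchy–Schwarz for the biased measure. -/
lemma ev_mul_sq_le (hp0 : 0 < p) (hp1 : p < 1) (f g : (ι → Bool) → ℝ) :
    ev p (fun x => f x * g x) ^ 2 ≤ ev p (fun x => f x ^ 2) * ev p (fun x => g x ^ 2) := by
  rw [parseval_mul hp0 hp1, parseval hp0 hp1, parseval hp0 hp1]
  exact sum_mul_sq_le_sq_mul_sq _ _ _

lemma sum_inflAt (f : (ι → Bool) → ℝ) : ∑ i, inflAt p f i = infl p f := by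
  simp only [inflAt, infl]
  rw [sum_comm]
  refine sum_congr rfl fun S _ => ?_
  rw [← sum_filter, sum_const, nsmul_eq_mul, filter_mem_eq_inter, univ_inter]

lemma inflAt_nonneg (f : (ι → Bool) → ℝ) (i : ι) : 0 ≤ inflAt p f i :=
  sum_nonneg fun S _ => by split_ifs <;> positivity

/-- Coefficients of the discrete derivative, at a set containing `i`. -/
lemma coef_erase_combination (hp0 : 0 < p) (hp1 : p < 1) (c : Finset ι → ℝ) (i : ι)
    (h : (ι → Bool) → ℝ) :
    ev p (fun x => h x * ∑ S, if i ∈ S then c S * chi p (S.erase i) x else 0) =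
      ∑ S, if i ∈ S then c S * coef p h (S.erase i) else 0 := by
  simp only [mul_sum]
  rw [ev_sum]
  refine sum_congr rfl fun S _ => ?_
  by_cases hi : i ∈ S
  · simp only [if_pos hi, coef]
    rw [← ev_mul_left]
    exact congrArg (ev p) (funext fun x => by ring)
  · simp [if_neg hi, ev_const]

lemma coef_erase_self (hp0 : 0 < p) (hp1 : p < 1) (c : Finset ι → ℝ) (i : ι) {S : Finset ι}
    (hS : i ∈ S) :
    coef p (fun x => ∑ T, if i ∈ T then c T * chi p (T.erase i) x else 0) (S.erase i) = c S := by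
  rw [coef_sum, sum_eq_single S]
  · simp only [if_pos hS]
    rw [coef_mul_left]
    simp [coef, ev_chi_mul hp0 hp1]
  · intro T _ hTS
    by_cases hT : i ∈ T
    · have : T.erase i ≠ S.erase i := fun h =>
        hTS (by rw [← insert_erase hT, ← insert_erase hS, h])
      simp only [if_pos hT]
      rw [coef_mul_left]
      simp [coef, ev_chi_mul hp0 hp1, this]
    · simp [hT, coef, ev_const]
  · simp

lemma ev_erase_mul (hp0 : 0 < p) (hp1 : p < 1) (c d : Finset ι → ℝ) (i : ι) :
    ev p (fun x => (∑ S, if i ∈ S then c S * chi p (S.erase i) x else 0) *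
      ∑ S, if i ∈ S then d S * chi p (S.erase i) x else 0) =
      ∑ S, if i ∈ S then c S * d S else 0 := by
  rw [coef_erase_combination hp0 hp1]
  refine sum_congr rfl fun S _ => ?_
  by_cases hS : i ∈ S
  · rw [if_pos hS, if_pos hS, coef_erase_self hp0 hp1 c i hS, mul_comm]
  · rw [if_neg hS, if_neg hS]

/-- The influence is the pivotality probability, scaled. -/
lemma inflAt_eq (hp0 : 0 < p) (hp1 : p < 1) (P : (ι → Bool) → Bool) (i : ι) :
    inflAt p (ind P) i = p * (1 - p) * ev p (pivot P i) := by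
  have hpq : (0 : ℝ) ≤ p * (1 - p) := (mul_pos hp0 (by linarith)).le
  have h := ev_erase_mul hp0 hp1 (coef p (ind P)) (coef p (ind P)) i
  simp only [← deriv_expansion hp0 hp1] at h
  rw [← ev_mul_left]
  simp only [inflAt, sq]
  rw [← h]
  refine congrArg (ev p) (funext fun x => ?_)
  simp only [pivot]
  rw [← mul_mul_mul_comm, Real.mul_self_sqrt hpq]
  ring

/-- Hölder against the pivotality indicator. -/
lemma low_part_bound (hp0 : 0 < p) (hp1 : p < 1) (P : (ι → Bool) → Bool) (part : ι → Finset V)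
    (t Δ : ℕ) (e : ι) {B : ℝ} (hB : 0 ≤ B)
    (h4 : ev p (fun x => lowPart p (ind P) part t Δ e x ^ 4) ≤
      B * ev p (fun x => lowPart p (ind P) part t Δ e x ^ 2) ^ 2) :
    (p * (1 - p)) * ev p (fun x => lowPart p (ind P) part t Δ e x ^ 2) ^ 2 ≤
      B * inflAt p (ind P) e ^ 3 := by
  obtain ⟨g, hg⟩ : ∃ g, g = lowPart p (ind P) part t Δ e := ⟨_, rfl⟩
  rw [← hg] at h4 ⊢
  obtain ⟨G, hG⟩ : ∃ G, G = ev p (fun x => g x ^ 2) := ⟨_, rfl⟩
  rw [← hG] at h4 ⊢
  have hG0 : 0 ≤ G := hG ▸ ev_nonneg hp0.le hp1.le fun x => sq_nonneg _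
  obtain ⟨π, hπ⟩ : ∃ π, π = pivot P e := ⟨_, rfl⟩
  obtain ⟨Pr, hPr⟩ : ∃ Pr, Pr = ev p π := ⟨_, rfl⟩
  have hπ0 : ∀ x, π x ^ 2 = π x := by
    intro x; simp only [hπ, pivot, ind]; split_ifs <;> norm_num
  obtain ⟨u, hu⟩ : ∃ u : (ι → Bool) → ℝ, u = fun x =>
      ind P (Function.update x e true) - ind P (Function.update x e false) := ⟨_, rfl⟩
  have huπ : ∀ x, u x ^ 2 = π x := fun x => by simp [hu, hπ, pivot]
  have huπ' : ∀ x, u x * π x = u x := by
    intro x; simp only [hu, hπ, pivot, ind]; split_ifs <;> norm_num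
  have hPr0 : 0 ≤ Pr := hPr ▸ ev_nonneg hp0.le hp1.le fun x => (hπ0 x).symm ▸ sq_nonneg _
  have hself : G = Real.sqrt (p * (1 - p)) * ev p (fun x => g x * u x) := by
    have h1 : (fun x => g x) = fun x => ∑ S, if e ∈ S then
        (if LowSet part t Δ S then coef p (ind P) S else 0) * chi p (S.erase e) x else 0 := by
      funext x
      rw [hg]
      refine sum_congr rfl fun S _ => ?_
      by_cases h : e ∈ S <;> by_cases h' : LowSet part t Δ S <;> simp [h, h']
    have h2 := ev_erase_mul hp0 hp1 (fun S => if LowSet part t Δ S then coef p (ind P) S else 0)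
      (fun S => if LowSet part t Δ S then coef p (ind P) S else 0) e
    have h3 := ev_erase_mul hp0 hp1 (fun S => if LowSet part t Δ S then coef p (ind P) S else 0)
      (coef p (ind P)) e
    simp only [← fun x => congrFun h1 x, ← deriv_expansion hp0 hp1] at h2 h3
    rw [← ev_mul_left, hG]
    simp only [sq]
    rw [h2]
    calc _ = ∑ S, (if e ∈ S then
          (if LowSet part t Δ S then coef p (ind P) S else 0) * coef p (ind P) S else 0) := by
          refine sum_congr rfl fun S _ => ?_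
          split_ifs <;> simp
      _ = _ := by
          rw [← h3]
          refine congrArg (ev p) (funext fun x => ?_)
          simp only [hu]
          ring
  have hc1 : ev p (fun x => g x * u x) ^ 2 ≤ ev p (fun x => g x ^ 2 * π x) * Pr := by
    calc ev p (fun x => g x * u x) ^ 2 = ev p (fun x => (g x * π x) * u x) ^ 2 := by
          congr 2; funext x; rw [mul_assoc, mul_comm (π x), huπ']
      _ ≤ ev p (fun x => (g x * π x) ^ 2) * ev p (fun x => u x ^ 2) := ev_mul_sq_le hp0 hp1 _ _
      _ = _ := by simp only [mul_pow, hπ0, huπ, hPr]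
  have hc2 : ev p (fun x => g x ^ 2 * π x) ^ 2 ≤ ev p (fun x => g x ^ 4) * Pr := by
    calc _ ≤ ev p (fun x => (g x ^ 2) ^ 2) * ev p (fun x => π x ^ 2) := ev_mul_sq_le hp0 hp1 _ _
      _ = _ := by simp only [hπ0, hPr, ← pow_mul]
  have hpq : (0 : ℝ) < p * (1 - p) := mul_pos hp0 (by linarith)
  have hkey : G ^ 4 ≤ (p * (1 - p)) ^ 2 * Pr ^ 3 * (B * G ^ 2) := by
    calc G ^ 4 = (p * (1 - p)) ^ 2 * (ev p (fun x => g x * u x) ^ 2) ^ 2 := by
          rw [hself, mul_pow, show 4 = 2 * 2 by rfl, pow_mul, Real.sq_sqrt hpq.le]; ring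
      _ ≤ (p * (1 - p)) ^ 2 * (ev p (fun x => g x ^ 2 * π x) * Pr) ^ 2 := by gcongr
      _ = (p * (1 - p)) ^ 2 * (ev p (fun x => g x ^ 2 * π x) ^ 2 * Pr ^ 2) := by ring
      _ ≤ (p * (1 - p)) ^ 2 * ((B * G ^ 2 * Pr) * Pr ^ 2) := by
          gcongr
          exact hc2.trans (mul_le_mul_of_nonneg_right h4 hPr0)
      _ = _ := by ring
  rw [inflAt_eq hp0 hp1, ← hπ, ← hPr]
  rcases hG0.eq_or_lt with hG' | hG'
  · rw [← hG']
    calc p * (1 - p) * (0 : ℝ) ^ 2 = 0 := by ring
      _ ≤ B * (p * (1 - p) * Pr) ^ 3 := by positivity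
  · have h2 : G ^ 2 ≤ (p * (1 - p)) ^ 2 * Pr ^ 3 * B := by
      refine le_of_mul_le_mul_right ?_ (pow_pos hG' 2)
      calc G ^ 2 * G ^ 2 = G ^ 4 := by ring
        _ ≤ _ := hkey
        _ = _ := by ring
    calc p * (1 - p) * G ^ 2 ≤ p * (1 - p) * ((p * (1 - p)) ^ 2 * Pr ^ 3 * B) := by gcongr
      _ = _ := by ring

/-- Invariance of influences. -/
lemma inflAt_act (act : ι ≃ ι) (P : (ι → Bool) → Bool)
    (hP : ∀ x, P (fun i => x (act i)) = P x) (i : ι) :
    inflAt p (ind P) (act i) = inflAt p (ind P) i := by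
  have hcoef : ∀ S : Finset ι, coef p (ind P) (S.map act.toEmbedding) = coef p (ind P) S := by
    intro S
    simp only [coef, ev]
    refine Fintype.sum_equiv (Equiv.arrowCongr act.symm (Equiv.refl Bool)) _ _ fun x => ?_
    have hwt : wt p ((Equiv.arrowCongr act.symm (Equiv.refl Bool)) x) = wt p x := by
      simp only [wt]
      exact Fintype.prod_equiv act _ _ fun j => by simp [Equiv.arrowCongr]
    have hchi : chi p S ((Equiv.arrowCongr act.symm (Equiv.refl Bool)) x) =
        chi p (S.map act.toEmbedding) x := by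
      simp [chi, Finset.prod_map, Equiv.arrowCongr]
    rw [hwt, hchi]
    congr 2
    simp only [ind]
    rw [← hP x]
    rfl
  simp only [inflAt]
  refine Eq.symm (Fintype.sum_equiv act.finsetCongr _ _ fun S => ?_)
  simp [hcoef]

lemma self_le_choose {w k : ℕ} (hk : 1 ≤ k) (hkw : 2 * k ≤ w) : w ≤ w.choose k := by
  induction k with
  | zero => omega
  | succ j ih =>
    rcases Nat.eq_zero_or_pos j with hj | hj
    · subst hj; simp
    · exact (ih hj (by omega)).trans (Nat.choose_le_succ_of_lt_half_left (by omega))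

/-- Every coordinate has influence at most a `1/|V|` fraction of the total. -/
lemma card_mul_inflAt_le {r : ℕ} (part : ι → Finset V) (act : Equiv.Perm V → Equiv.Perm ι)
    (P : (ι → Bool) → Bool) (hpart : ∀ i, (part i).Nonempty ∧ (part i).card ≤ r)
    (heq : ∀ σ i, part (act σ i) = (part i).map σ.toEmbedding)
    (hP : ∀ σ x, P (fun i => x (act σ i)) = P x) (hr : 2 * r ≤ Fintype.card V) (e : ι) :
    (Fintype.card V : ℝ) * inflAt p (ind P) e ≤ infl p (ind P) := by
  have hex : ∀ T ∈ powersetCard (part e).card (univ : Finset V),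
      ∃ i, part i = T ∧ inflAt p (ind P) i = inflAt p (ind P) e := by
    intro T hT
    obtain ⟨σ, hσ⟩ : ∃ σ : Equiv.Perm V, (part e).map σ.toEmbedding = T := by
      refine ⟨(Finset.equivOfCardEq (mem_powersetCard.1 hT).2.symm).extendSubtype, ?_⟩
      refine eq_of_subset_of_card_le ?_ (by rw [card_map]; exact (mem_powersetCard.1 hT).2.le)
      intro x hx
      obtain ⟨y, hy, rfl⟩ := Finset.mem_map.1 hx
      exact Equiv.extendSubtype_mem _ y hy
    exact ⟨act σ e, (heq σ e).trans hσ, inflAt_act (act σ) P (hP σ) e⟩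
  choose g hg using hex
  obtain ⟨O, hO⟩ : ∃ O : Finset ι,
      O = (powersetCard (part e).card (univ : Finset V)).attach.image (fun T => g T.1 T.2) :=
    ⟨_, rfl⟩
  have hcard : (Fintype.card V).choose (part e).card ≤ O.card := by
    rw [hO, card_image_of_injective, card_attach, card_powersetCard, card_univ]
    intro T T' h
    exact Subtype.ext ((hg T.1 T.2).1.symm.trans ((congrArg part h).trans (hg T'.1 T'.2).1))
  have hw : (Fintype.card V : ℝ) ≤ O.card := by
    exact_mod_cast (self_le_choose (card_pos.2 (hpart e).1) (by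
      linarith [(hpart e).2])).trans hcard
  calc (Fintype.card V : ℝ) * inflAt p (ind P) e ≤ O.card * inflAt p (ind P) e :=
        mul_le_mul_of_nonneg_right hw (inflAt_nonneg _ _)
    _ = ∑ i ∈ O, inflAt p (ind P) i := by
        rw [← nsmul_eq_mul, ← sum_const]
        refine (sum_congr rfl fun i hi => ?_).symm
        rw [hO, mem_image] at hi
        obtain ⟨T, _, rfl⟩ := hi
        exact (hg T.1 T.2).2
    _ ≤ infl p (ind P) := by
        rw [← sum_inflAt]
        exact sum_le_sum_of_subset_of_nonneg (subset_univ _) fun i _ _ => inflAt_nonneg _ _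

theorem lowMass (hF : FourthMoment) : LowMass := by
  intro r
  obtain ⟨c, w₀, hc, hF'⟩ := hF r
  refine ⟨min c (1 / 30), max w₀ (2 * r + 2), lt_min hc (by norm_num), ?_⟩
  intro ι V _ _ _ part act P p t Δ hw hpart heq hP hfix hp0 hp1 hlog
  obtain ⟨w, hwdef⟩ : ∃ w : ℝ, w = (Fintype.card V : ℝ) := ⟨_, rfl⟩
  have hwnat : 2 * r + 2 ≤ Fintype.card V := le_trans (le_max_right _ _) hw
  have hw1 : (1 : ℝ) ≤ w := by rw [hwdef]; exact_mod_cast (show 1 ≤ Fintype.card V by omega)
  have hw0 : (0 : ℝ) < w := by linarith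
  rw [← hwdef] at hlog ⊢
  have hlw : 0 ≤ Real.log w := Real.log_nonneg hw1
  have hpq : (0 : ℝ) < p * (1 - p) := mul_pos hp0 (by linarith)
  -- the base is a small power of `w`
  have hLw : Real.log (base p) ≤ 1 / 30 * Real.log w := by
    have hK : 1 ≤ base p := by
      rw [base, le_div_iff₀ hpq]; nlinarith [sq_nonneg (p - 1 / 2)]
    have h1 : Real.log (base p) ≤ ((Δ : ℝ) + 1) * Real.log (base p) :=
      le_mul_of_one_le_left (Real.log_nonneg hK) (by linarith [(Δ.cast_nonneg : (0 : ℝ) ≤ Δ)])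
    have h2 : min c (1 / 30) * Real.log w ≤ 1 / 30 * Real.log w :=
      mul_le_mul_of_nonneg_right (min_le_right _ _) hlw
    linarith [(t.cast_nonneg : (0 : ℝ) ≤ t)]
  have hKw : 1 / (p * (1 - p)) ≤ w ^ (1 / 30 : ℝ) := by
    have hb : (0 : ℝ) < base p := div_pos (by norm_num) hpq
    calc 1 / (p * (1 - p)) ≤ base p := by
          rw [base]; gcongr; norm_num
      _ ≤ w ^ (1 / 30 : ℝ) := by
          rw [← Real.log_le_log_iff hb (Real.rpow_pos_of_pos hw0 _), Real.log_rpow hw0]
          exact hLw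
  obtain ⟨I, hI⟩ : ∃ I : ℝ, I = infl p (ind P) := ⟨_, rfl⟩
  rw [← hI]
  have hI0 : 0 ≤ I := hI ▸ infl_nonneg _
  rcases le_or_gt (w ^ (1 / 5 : ℝ)) I with hbig | hsmall
  · calc weight p (ind P) (LowSet part t Δ) ≤ 1 := weight_le_one hp0 hp1 _ _
      _ ≤ I / w ^ (1 / 5 : ℝ) := by
          rwa [le_div_iff₀ (Real.rpow_pos_of_pos hw0 _), one_mul]
  have hmain : ∀ e, ev p (fun x => lowPart p (ind P) part t Δ e x ^ 2) ≤
      inflAt p (ind P) e * (1 / w ^ (1 / 5 : ℝ)) := by
    intro e
    have hFe := hF' ι V part act P p t Δ (le_trans (le_max_left _ _) hw) hpart heq hP hfix hp0 hp1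
      (by rw [← hwdef]; exact hlog.trans (mul_le_mul_of_nonneg_right (min_le_left _ _) hlw)) e
    rw [← hwdef] at hFe
    have hb := low_part_bound hp0 hp1 P part t Δ e (Real.rpow_nonneg hw0.le _) hFe
    obtain ⟨G, hG⟩ : ∃ G, G = ev p (fun x => lowPart p (ind P) part t Δ e x ^ 2) := ⟨_, rfl⟩
    obtain ⟨J, hJ⟩ : ∃ J, J = inflAt p (ind P) e := ⟨_, rfl⟩
    rw [← hG, ← hJ] at hb ⊢
    have hG0 : 0 ≤ G := hG ▸ ev_nonneg hp0.le hp1.le fun x => sq_nonneg _
    have hJ0 : 0 ≤ J := hJ ▸ inflAt_nonneg _ _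
    have hJw : J ≤ w ^ (1 / 5 : ℝ) / w := by
      rw [le_div_iff₀ hw0, mul_comm]
      have := card_mul_inflAt_le (p := p) part act P hpart heq hP (by omega) e
      rw [← hwdef, ← hJ, ← hI] at this
      linarith
    have hsq : G ^ 2 ≤ (J * (1 / w ^ (1 / 5 : ℝ))) ^ 2 := by
      calc G ^ 2 ≤ (w ^ (1 / 20 : ℝ) * (1 / (p * (1 - p)))) * J * J ^ 2 := by
            rw [mul_one_div, div_mul_eq_mul_div, div_mul_eq_mul_div, le_div_iff₀ hpq]
            linarith
        _ ≤ (w ^ (1 / 20 : ℝ) * w ^ (1 / 30 : ℝ)) * (w ^ (1 / 5 : ℝ) / w) * J ^ 2 := by gcongr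
        _ ≤ (J * (1 / w ^ (1 / 5 : ℝ))) ^ 2 := by
            rw [mul_pow, div_pow, one_pow, sq (w ^ (1 / 5 : ℝ)), ← Real.rpow_add hw0,
              ← Real.rpow_add hw0, mul_comm (J ^ 2)]
            refine mul_le_mul_of_nonneg_right ?_ (sq_nonneg _)
            rw [mul_div_assoc', ← Real.rpow_add hw0, div_le_div_iff₀ hw0 (by positivity),
              ← Real.rpow_add hw0, one_mul]
            exact (Real.rpow_le_rpow_of_exponent_le hw1 (by norm_num)).trans (Real.rpow_one w).le
    exact (pow_le_pow_iff_left₀ hG0 (by positivity) two_ne_zero).1 hsq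
  calc weight p (ind P) (LowSet part t Δ)
      ≤ ∑ e, ev p (fun x => lowPart p (ind P) part t Δ e x ^ 2) := by
        have hG : ∀ e, ev p (fun x => lowPart p (ind P) part t Δ e x ^ 2) =
            ∑ S : Finset ι, if e ∈ S then
              (if LowSet part t Δ S then coef p (ind P) S ^ 2 else 0) else 0 := by
          intro e
          have h := ev_erase_mul hp0 hp1 (fun S => if LowSet part t Δ S then coef p (ind P) S else 0)
            (fun S => if LowSet part t Δ S then coef p (ind P) S else 0) e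
          have h1 : ∀ x, lowPart p (ind P) part t Δ e x = ∑ S, if e ∈ S then
              (if LowSet part t Δ S then coef p (ind P) S else 0) * chi p (S.erase e) x else 0 := by
            intro x
            refine sum_congr rfl fun S _ => ?_
            by_cases h : e ∈ S <;> by_cases h' : LowSet part t Δ S <;> simp [h, h']
          simp only [sq, h1]
          rw [h]
          exact sum_congr rfl fun S _ => by split_ifs <;> ring
        simp only [hG]
        rw [sum_comm]
        refine sum_le_sum fun S _ => ?_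
        by_cases hS : LowSet part t Δ S
        · rw [if_pos hS, ← sum_filter, sum_const, nsmul_eq_mul]
          refine le_mul_of_one_le_left (sq_nonneg _) ?_
          obtain ⟨i, hi⟩ := hS.1
          exact_mod_cast card_pos.2 ⟨i, by simp [hi]⟩
        · rw [if_neg hS]
          exact sum_nonneg fun e _ => by split_ifs <;> simp
    _ ≤ ∑ e, inflAt p (ind P) e * (1 / w ^ (1 / 5 : ℝ)) := sum_le_sum fun e _ => hmain e
    _ = I / w ^ (1 / 5 : ℝ) := by rw [← sum_mul, sum_inflAt, ← hI, mul_one_div]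

end Vale.Agent.P063
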