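import Vale.Agent.P063.Fourier

/-!
Interface between the fourth-moment bound and the low-mass bound.
-/

open Finset
open scoped Classical

namespace Vale.Agent.P063

/-- The part of the discrete derivative at `e` coming from the low sparse sets. -/
noncomputable def lowPart {ι V : Type*} [Fintype ι] [DecidableEq V] (p : ℝ)
    (f : (ι → Bool) → ℝ) (part : ι → Finset V) (t Δ : ℕ) (e : ι) (x : ι → Bool) : ℝ :=
  ∑ S : Finset ι, if e ∈ S ∧ LowSet part t Δ S then coef p f S * chi p (S.erase e) x else 0

/-- The fourth moment of the low part of a derivative of an invariant function. -/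
def FourthMoment : Prop :=
  ∀ r : ℕ, ∃ (c : ℝ) (w₀ : ℕ), 0 < c ∧
    ∀ (ι V : Type) [Fintype ι] [Fintype V] [DecidableEq V] (part : ι → Finset V)
      (act : Equiv.Perm V → Equiv.Perm ι) (P : (ι → Bool) → Bool) (p : ℝ) (t Δ : ℕ),
      w₀ ≤ Fintype.card V →
      (∀ i, (part i).Nonempty ∧ (part i).card ≤ r) →
      (∀ σ i, part (act σ i) = (part i).map σ.toEmbedding) →
      (∀ σ x, P (fun i => x (act σ i)) = P x) →
      (∀ σ i, (∀ u ∈ part i, σ u = u) → act σ i = i) →
      0 < p → p < 1 →
      ((t : ℝ) + 1) + ((Δ : ℝ) + 1) * Real.log (base p) ≤ c * Real.log (Fintype.card V) →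
      ∀ e : ι,
        ev p (fun x => lowPart p (ind P) part t Δ e x ^ 4) ≤
          (Fintype.card V : ℝ) ^ (1 / 20 : ℝ) *
            ev p (fun x => lowPart p (ind P) part t Δ e x ^ 2) ^ 2

end Vale.Agent.P063
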