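import Vale.Agent.P063.Fourier

/-!
Restriction of a function to a set of coordinates.
-/

open Finset
open scoped Classical

namespace Vale.Agent.P063

set_option linter.unusedSectionVars false

variable {ι : Type} [Fintype ι] {p : ℝ}

/-- Glue values on `A` with values elsewhere. -/
noncomputable def glue (A : Finset ι) (y : {i // i ∈ A} → Bool) (z : ι → Bool) : ι → Bool :=
  fun i => if h : i ∈ A then y ⟨i, h⟩ else z i

/-- The part of `S` inside `A`. -/
noncomputable def inside (A S : Finset ι) : Finset {i // i ∈ A} := S.subtype (fun i => i ∈ A)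

lemma mem_inside {A S : Finset ι} {i : {i // i ∈ A}} : i ∈ inside A S ↔ i.1 ∈ S := by
  simp [inside]

lemma inside_card_le (A S : Finset ι) : (inside A S).card ≤ S.card := by
  unfold inside
  rw [card_subtype]
  exact card_filter_le _ _

lemma inside_eq_imp {A S T : Finset ι} (h1 : inside A S = inside A T) (h2 : S \ A = T \ A) :
    S = T := by
  ext i
  by_cases hi : i ∈ A
  · have := Finset.ext_iff.1 h1 ⟨i, hi⟩
    simpa [mem_inside] using this
  · have := Finset.ext_iff.1 h2 i
    simpa [hi] using this

lemma chi_glue (A S : Finset ι) (y : {i // i ∈ A} → Bool) (z : ι → Bool) :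
    chi p S (glue A y z) = chi p (inside A S) y * chi p (S \ A) z := by
  have h1 : chi p (inside A S) y = ∏ i ∈ S.filter (· ∈ A), phi p (glue A y z i) := by
    rw [← subtype_map (fun i => i ∈ A), prod_map]
    exact prod_congr rfl fun i _ => by simp [phi, glue]
  have h2 : chi p (S \ A) z = ∏ i ∈ S.filter (fun i => ¬ i ∈ A), phi p (glue A y z i) := by
    rw [← sdiff_eq_filter]
    exact prod_congr rfl fun i hi => by simp [phi, glue, (mem_sdiff.1 hi).2]
  rw [h1, h2, prod_filter_mul_prod_filter_not, chi_def]

lemma coef_restrict (hp0 : 0 < p) (hp1 : p < 1) (f : (ι → Bool) → ℝ) (A : Finset ι)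
    (z : ι → Bool) (S' : Finset {i // i ∈ A}) :
    coef p (fun y => f (glue A y z)) S' =
      ∑ S : Finset ι, if inside A S = S' then coef p f S * chi p (S \ A) z else 0 := by
  have h : (fun y => f (glue A y z)) = fun y => ∑ S : Finset ι,
      (coef p f S * chi p (S \ A) z) * chi p (inside A S) y := by
    funext y
    rw [expansion hp0 hp1 f (glue A y z)]
    exact sum_congr rfl fun S _ => by rw [chi_glue]; ring
  rw [h, coef_sum]
  refine sum_congr rfl fun S _ => ?_
  rw [coef_mul_left]
  simp only [coef, ev_chi_mul hp0 hp1, mul_ite, mul_one, mul_zero]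

lemma ev_coef_restrict_sq (hp0 : 0 < p) (hp1 : p < 1) (f : (ι → Bool) → ℝ) (A : Finset ι)
    (S' : Finset {i // i ∈ A}) :
    ev p (fun z => coef p (fun y => f (glue A y z)) S' ^ 2) =
      ∑ S : Finset ι, if inside A S = S' then coef p f S ^ 2 else 0 := by
  calc ev p (fun z => coef p (fun y => f (glue A y z)) S' ^ 2)
      = ev p (fun z => ∑ S ∈ univ.filter (fun S => inside A S = S'),
          ∑ T ∈ univ.filter (fun S => inside A S = S'),
          (coef p f S * coef p f T) * (chi p (S \ A) z * chi p (T \ A) z)) := by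
        congr 1; funext z
        rw [coef_restrict hp0 hp1, ← sum_filter, sq, sum_mul_sum]
        exact sum_congr rfl fun S _ => sum_congr rfl fun T _ => by ring
    _ = ∑ S ∈ univ.filter (fun S => inside A S = S'), coef p f S ^ 2 := by
        rw [ev_sum]
        refine sum_congr rfl fun S hS => ?_
        rw [ev_sum, sum_eq_single S]
        · rw [ev_mul_left, ev_chi_mul hp0 hp1, if_pos rfl, mul_one, sq]
        · intro T hT hne
          rw [ev_mul_left, ev_chi_mul hp0 hp1, if_neg, mul_zero]
          intro heq
          exact hne (inside_eq_imp ((mem_filter.1 hT).2.trans (mem_filter.1 hS).2.symm) heq.symm)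
        · exact fun h => absurd hS h
    _ = _ := sum_filter _ _

/-- Average of a weighted sum of squared coefficients of the restrictions. -/
lemma ev_restrict_sum (hp0 : 0 < p) (hp1 : p < 1) (f : (ι → Bool) → ℝ) (A : Finset ι)
    (g : Finset {i // i ∈ A} → ℝ) :
    ev p (fun z => ∑ S', g S' * coef p (fun y => f (glue A y z)) S' ^ 2) =
      ∑ S : Finset ι, g (inside A S) * coef p f S ^ 2 := by
  rw [ev_sum]
  simp only [ev_mul_left, ev_coef_restrict_sq hp0 hp1, mul_sum, mul_ite, mul_zero]
  rw [sum_comm]
  simp

lemma ev_weight_restrict (hp0 : 0 < p) (hp1 : p < 1) (f : (ι → Bool) → ℝ) (A : Finset ι)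
    (C : Finset {i // i ∈ A} → Prop) :
    ev p (fun z => weight p (fun y => f (glue A y z)) C) =
      weight p f (fun S => C (inside A S)) := by
  have := ev_restrict_sum hp0 hp1 f A (fun S' => if C S' then 1 else 0)
  simpa [weight, ite_mul] using this

lemma ev_infl_restrict (hp0 : 0 < p) (hp1 : p < 1) (f : (ι → Bool) → ℝ) (A : Finset ι) :
    ev p (fun z => infl p (fun y => f (glue A y z))) ≤ infl p f := by
  have := ev_restrict_sum hp0 hp1 f A (fun S' => (S'.card : ℝ))
  simp only [infl]
  rw [this]
  refine sum_le_sum fun S _ => mul_le_mul_of_nonneg_right ?_ (sq_nonneg _)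
  exact_mod_cast inside_card_le A S

end Vale.Agent.P063
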